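import Vale.Agent.P354XB.En2
import Vale.Agent.P354HG.Global

/-!
The a priori estimate by a continuity argument, and existence on a finite interval.
-/

open scoped ContDiff
open MeasureTheory Set Filter Topology

namespace Vale.Agent.P354XB

open Vale.Agent.P354H Vale.Agent.P354C Vale.Agent.P354A Vale.Agent.P354X

/-- Smooth with compact support in space-time. -/
def Gd (z : ℝ × X3 → Ix → ℝ) : Prop := ∀ i, ContDiff ℝ ∞ (cmp z i) ∧ HasCompactSupport (cmp z i)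

theorem Gd.int {z : ℝ × X3 → Ix → ℝ} (h : Gd z) (n : ℕ) (t : ℝ) :
    Integrable fun x : X3 => en n z (t, x) := by
  simpa using en_id (ψ := fun _ => 1) contDiff_const (fun i => (h i).1) (fun i => (h i).2) n t

theorem Gd.good {z : ℝ × X3 → Ix → ℝ} (h : Gd z) (i : Ix) (t : ℝ) : Good (sl (cmp z i) t) :=
  ⟨P354HL.sl_sm (h i).1 t, P354HU.cs_sl (h i).2 t⟩

theorem en_nn (n : ℕ) (w : ℝ × X3 → Ix → ℝ) (p : ℝ × X3) : 0 ≤ en n w p :=
  Finset.sum_nonneg fun _ _ => lsum_nn _ fun _ _ => sq_nonneg _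

theorem Gd.hk {z : ℝ × X3 → Ix → ℝ} (h : Gd z) {n : ℕ} {t B : ℝ} (H : ∫ x, en n z (t, x) ≤ B)
    (i : Ix) : Hk n (sl (cmp z i) t) B := fun α hα => by
  refine (integral_mono ((h.good i t).pdl α).c0.sq (h.int n t) fun x => ?_).trans H
  rw [dxl_sl α (h i).1]
  simpa [sl] using sq_le_en z (t, x) i hα

theorem Gd.pb {z : ℝ × X3 → Ix → ℝ} (h : Gd z) {n : ℕ} {B : ℝ} {p : ℝ × X3}
    (H : ∫ x, en (n + 3) z (p.1, x) ≤ B) (i : Ix) : Pb n (cmp z i) p (3 * √B) := fun α hα => by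
  rw [dxl_eq_pdl α (h i).1]
  exact (h.hk H i).nk.sb (h.good i p.1) α hα p.2

/-- The a priori estimate. -/
theorem apr (m : ℕ) (hm : 3 ≤ m) : ∃ C : ℝ, 1 ≤ C ∧
    ∀ (L T ν Q E B φ0 : ℝ) (θ : ℝ → ℝ) (φ γ : ℝ × X3 → ℝ) (K f z : ℝ × X3 → Ix → ℝ), 0 < ν →
      ν ≤ 1 → Continuous θ → (∀ s, ν ^ 2 ≤ θ s) → Gh L C φ0 φ γ →
      (∀ i, ContDiff ℝ ∞ (cmp K i)) → Gd f → Gd z → (∀ p : ℝ × X3, p.1 ∈ Icc 0 T →
        EqL L K f z p ∧ ∀ i, Pb (2 * m + 1) (cmp K i) p (θ p.1 + γ p * ib i)) →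
      (∀ s ∈ Icc 0 T, ∫ x, en (2 * m) f (s, x) ≤ Q) → ∫ x, en (2 * m) z (0, x) ≤ E →
      C / (ν * φ0) ^ 2 * Real.exp (C * ∫ s in (0 : ℝ)..T, (ν + θ s / ν)) * (E + T * Q / ν) ≤ B →
      3 * √B < ν ^ 2 → ∀ t ∈ Icc 0 T, ∫ x, en (2 * m) z (t, x) ≤ B := by
  obtain ⟨C, C1, hC⟩ := xenW m (by omega)
  refine ⟨C, C1, fun L T ν Q E B φ0 θ φ γ K f z h0 h1 cθ θ0 hφ hK hf hz H hQ hE hB hs => ?_⟩
  have f0 := hφ.pos
  have θ1 : ∀ s, 0 ≤ θ s := fun s => (sq_nonneg _).trans (θ0 s)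
  have m0 : ∀ s, 0 ≤ ν + θ s / ν := fun s => by have := θ1 s; positivity
  have cm : Continuous fun s => ν + θ s / ν := by fun_prop
  have key : ∀ t ∈ Icc 0 T, (∀ p : ℝ × X3, p.1 ∈ Icc 0 t → ∀ i, Pb m (cmp z i) p (ν ^ 2)) →
      ∫ x, en (2 * m) z (t, x) ≤ B := fun t ht hb => by
    have sub : Icc 0 t ⊆ Icc 0 T := Icc_subset_Icc_right ht.2
    have Q0 : 0 ≤ Q := (integral_nonneg fun x => en_nn _ f (t, x)).trans (hQ t ht)
    have E0 : 0 ≤ ∫ x, en (2 * m) z (0, x) := integral_nonneg fun x => en_nn _ z (0, x)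
    refine (hC L t ν Q φ0 θ φ γ K f z h0 h1 cθ θ1 hφ hK hf hz (fun p hp => ⟨(H p (sub hp)).1, fun i =>
      ⟨(H p (sub hp)).2 i, (hb p hp i).mono le_rfl (θ0 _)⟩⟩) (fun s hs => hQ s (sub hs)) t
      ⟨ht.1, le_rfl⟩).trans (le_trans ?_ hB)
    have a : ∫ s in (0 : ℝ)..t, (ν + θ s / ν) ≤ ∫ s in (0 : ℝ)..T, (ν + θ s / ν) :=
      intervalIntegral.integral_mono_interval le_rfl ht.1 ht.2
        (Eventually.of_forall m0) (cm.intervalIntegrable _ _)
    have t0 := ht.1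
    have t1 := ht.2
    gcongr
  have low : ∀ p : ℝ × X3, ∫ x, en (2 * m) z (p.1, x) ≤ B → ∀ i, Pb m (cmp z i) p (3 * √B) :=
    fun p h i => by
      obtain ⟨k, hk⟩ : ∃ k, 2 * m = k + 3 := ⟨2 * m - 3, by omega⟩
      rw [hk] at h
      exact (hz.pb h i).mono (by omega) le_rfl
  have : Finite {α : List (Fin 3) // α.length ≤ m} := (List.finite_length_le (Fin 3) m).to_subtype
  intro t ht
  have T0 : 0 ≤ T := ht.1.trans ht.2
  have all := touch (M := Ix × {α : List (Fin 3) // α.length ≤ m})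
    (z := fun r => dxl r.2.1 (cmp z r.1)) (B := fun _ _ => ν ^ 2) (T := T)
    (fun r => (P354X.dxl_sm _ (hz _).1).continuous) (fun r => P354X.dxl_cs _ (hz _).2)
    (fun _ => continuous_const) (fun _ _ _ => by positivity)
    (fun r x => (low (0, x) (hE.trans (le_trans ?_ hB)) r.1 _ r.2.2).trans_lt hs)
    (fun t ht hle r x => ((low (t, x) (key t ⟨ht.1.le, ht.2⟩ fun p hp i α hα =>
      hle (i, ⟨α, hα⟩) p hp) r.1 _ r.2.2).trans_lt hs).ne)
  · exact key t ht fun p hp i α hα => (all (i, ⟨α, hα⟩) p ⟨hp.1, hp.2.trans ht.2⟩).le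
  · have Q0 : 0 ≤ Q := (integral_nonneg fun x => en_nn _ f (t, x)).trans (hQ t ht)
    have E0 : 0 ≤ E := (integral_nonneg fun x => en_nn _ z (0, x)).trans hE
    have a : 1 ≤ C / (ν * φ0) ^ 2 := by
      rw [le_div_iff₀ (by positivity), one_mul]
      exact (pow_le_one₀ (by positivity) (mul_le_one₀ h1 f0.le
        ((hφ.bd 0).1.trans (hφ.bd 0).2.1))).trans C1
    have b : 1 ≤ Real.exp (C * ∫ s in (0 : ℝ)..T, (ν + θ s / ν)) := Real.one_le_exp
      (mul_nonneg (by linarith) (intervalIntegral.integral_nonneg T0 fun s _ => m0 s))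
    exact (le_add_of_nonneg_right (by positivity)).trans
      (le_mul_of_one_le_left (by positivity) (one_le_mul_of_one_le_of_one_le a b))

open P354HG in
/-- Existence on a finite interval from the a priori estimate. -/
theorem upto_fin {V : Type} [NormedAddCommGroup V] [InnerProductSpace ℝ V] [FiniteDimensional ℝ V]
    (hL : LOCAL) {S : Sys V} (hS : S.OK) {C' : ℕ → ℝ} (hC' : S.Bd univ C') {w : X3 → V}
    (hw : Good w) {T R : ℝ} (hR : ∀ T' ∈ Icc 0 T, ∀ W, ContDiff ℝ ∞ W → HasCompactSupport W →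
      sl W 0 = w → (∀ p : ℝ × X3, p.1 ∈ Icc 0 T' → S.Holds W p) → Hk 8 (sl W T') R) :
    ∃ δ > 0, ∃ W, ContDiff ℝ ∞ W ∧ HasCompactSupport W ∧ sl W 0 = w ∧
      ∀ p : ℝ × X3, p.1 ∈ Icc (-δ) T → S.Holds W p := by
  obtain ⟨c, hc⟩ := ex_nk w 8
  obtain ⟨δ, hδ, -, hl0⟩ := hL C' (c ^ 2)
  obtain ⟨W0, a0, b0, c0, d0⟩ := hl0 V S 0 w hS (bd_mono hC' (subset_univ _)) hw hc.hk
  have h0 : Upto S W0 δ δ := ⟨W0, a0, b0, fun _ _ => rfl, fun p hp => d0 p (by simpa using hp)⟩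
  obtain ⟨δ', p1, p2, hl⟩ := hL C' R
  obtain ⟨h, q0, q1, q2⟩ : ∃ h : ℝ, 0 < h ∧ 2 * h ≤ δ' ∧ h ≤ δ :=
    ⟨min (δ' / 2) δ, lt_min (by linarith) hδ, by linarith [min_le_left (δ' / 2) δ], min_le_right _ _⟩
  have step : ∀ s, δ ≤ s → s ≤ T → Upto S W0 δ s → Upto S W0 δ (s + h) := by
    rintro s s1 s2 ⟨W, a, b, c, d⟩
    have e0 : sl W 0 = w := c0 ▸ funext fun x => c (0, x) le_rfl
    obtain ⟨W', a', b', c', d'⟩ := hl V S (s - h) (sl W (s - h)) hS
      (bd_mono hC' (subset_univ _)) (good_sl a b _)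
      (hR (s - h) ⟨by linarith, by linarith⟩ W a b e0 fun p hp =>
        d p ⟨by linarith [hp.1], by linarith [hp.2]⟩)
    have u : ∀ p : ℝ × X3, p.1 ∈ Icc (s - h) s → W p = W' p := fun p hp =>
      uniq_cs hS (bd_mono hC' (subset_univ _)) a a' b
        (fun q hq => d q ⟨by linarith [hq.1], hq.2⟩)
        (fun q hq => d' q ⟨by linarith [hq.1], by linarith [hq.2]⟩) c'.symm hp
    have m1 : s - h < s - h / 2 := by linarith
    have m2 : s - h / 2 < s := by linarith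
    refine ⟨glue (s - h / 2) W W', glue_cd u m1 m2 a a', glue_cs _ b b', fun p hp => ?_,
      fun p hp => ?_⟩
    · rw [(glue_left u m1 (by linarith)).eq_of_nhds, c p hp]
    · rcases lt_or_ge p.1 s with k | k
      · exact holds_congr S (glue_left u m1 k).symm (d p ⟨hp.1, k.le⟩)
      · exact holds_congr S (glue_right u m2 (by linarith)).symm
          (d' p ⟨by linarith, by linarith [hp.2]⟩)
  have ind : ∀ n : ℕ, Upto S W0 δ (δ + n * h) ∨ Upto S W0 δ T := by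
    intro n
    induction n with
    | zero => exact Or.inl (by simpa using h0)
    | succ n ih =>
      rcases ih with ih | ih
      · rcases le_total (δ + n * h) T with k | k
        · refine Or.inl ?_
          have := step _ (le_add_of_nonneg_right (by positivity)) k ih
          rwa [Nat.cast_succ, add_mul, one_mul, ← add_assoc]
        · exact Or.inr (ih.mono k)
      · exact Or.inr ih
  obtain ⟨n, hn⟩ := exists_nat_ge (T / h)
  obtain ⟨W, a, b, c, d⟩ : Upto S W0 δ T := (ind n).elim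
    (fun k => k.mono (by rw [div_le_iff₀ q0] at hn; linarith)) id
  exact ⟨δ, hδ, W, a, b, c0 ▸ funext fun x => c (0, x) le_rfl, d⟩

end Vale.Agent.P354XB
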