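import Vale.Agent.P354XB.Est

/-!
The proof of CORE.
-/

open scoped ContDiff
open MeasureTheory Set Filter Topology

noncomputable section

namespace Vale.Agent.P354XB

open Vale.Agent.P354H Vale.Agent.P354C Vale.Agent.P354C.Ix Vale.Agent.P354A
open Vale.Agent.P354X (fl all_mem)
open Vale.Agent.P354K (n0)
open Vale.Agent.P354CS (Di sysK sysK_ok sysK_bd)
open Vale.Agent.P354CU (Dm Di_Dm)
open Vale.Agent.P354AE (Dm_Di good_pi hk_pi sol_of eqn_of)

variable {V : ℝ × X3 → Ix → ℝ}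

theorem pb_all (h : Gd V) (k : ℕ) : ∃ c, ∀ p i, Pb k (cmp V i) p c := by
  have : Finite {α : List (Fin 3) // α.length ≤ k} := (List.finite_length_le (Fin 3) k).to_subtype
  choose b hb using fun r : Ix × {α : List (Fin 3) // α.length ≤ k} =>
    (dxl_sm r.2.1 (h r.1).1).continuous.bounded_above_of_compact_support (dxl_cs r.2.1 (h r.1).2)
  obtain ⟨c, hc⟩ := (finite_range b).bddAbove
  exact ⟨c, fun p i α hα => (hb (i, ⟨α, hα⟩) p).trans (hc (mem_range_self _))⟩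

theorem hk_all (h : Gd V) (k : ℕ) : ∃ R, ∀ t i, Hk k (sl (cmp V i) t) R := by
  obtain ⟨c, hc⟩ := pb_all h k
  have S : IsCompact (Prod.snd '' ⋃ i, tsupport (cmp V i)) :=
    (isCompact_iUnion fun i => (h i).2).image continuous_snd
  exact ⟨_, fun t => h.hk (en_supp2 h S.measurableSet
    (ENNReal.ofReal_toReal S.measure_lt_top.ne).ge ENNReal.toReal_nonneg (fun x hx i =>
      pb_zero (notMem_tsupport_iff_eventuallyEq.1 fun c => hx ⟨_, mem_iUnion.2 ⟨i, c⟩, rfl⟩) _)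
    fun x i => hc _ i)⟩

theorem hk_unsx {f : ℝ × X3 → ℝ} {l t R : ℝ} {k : ℕ} (hf : Sm f) (hl : 1 ≤ l)
    (h : Hk k (sl (fun q => f (sx l q)) t) R) : Hk k (sl f t) (l ^ (2 * k) * R) := fun α hα => by
  have l0 : 0 < l := by linarith
  have a := h α hα
  have c : Continuous fun x : X3 => ‖dxl α f (t, x)‖ ^ 2 :=
    ((dxl_sm α hf).continuous.comp (by fun_prop)).norm.pow 2
  have b := int_sx l0 c
  rw [dxl_sl α (sm_sx hf), dxl_sx α hf] at a
  simp only [sl, norm_mul, mul_pow, sx_ap] at a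
  rw [integral_const_mul, b, Real.norm_eq_abs, sq_abs, ← pow_mul, inv_pow,
    inv_mul_le_iff₀ (by positivity)] at a
  have R0 : 0 ≤ R := (isq_nonneg _).trans (h [] (Nat.zero_le _))
  rw [dxl_sl α hf]
  refine (le_mul_of_one_le_left (isq_nonneg _) hl).trans (a.trans
    (mul_le_mul_of_nonneg_right (pow_le_pow_right₀ hl ?_) R0))
  have : n0 α ≤ α.length := List.count_le_length
  omega

/-- CORE for a small lapse. -/
theorem core0 (n : ℕ) : ∃ N : ℕ, ∀ (T G ν A l : ℝ) (c : ℝ → ℝ) (K a : ℝ × X3 → Ix → ℝ)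
    (z : X3 → Ix → ℝ), Gro T G ν c → Bg0 (2 * n + 12) T G c K a → G ≤ l → 0 < A →
    A * l * G ^ N ≤ 1 → (∀ i, Good (cmp z i)) →
    (∃ R, ∀ x : X3, G < |x.1 - R| ∨ G < ‖x.2‖ → z x = 0) →
    (∀ i x, Sa l (2 * n + 8) (cmp z i) x (A * G / l)) →
    ∃ δ > 0, ∃ w : ℝ × X3 → Ix → ℝ, Gd w ∧ (∀ x, w (0, x) = wv A l a (0, x) + z x) ∧
      (∀ p : ℝ × X3, p.1 ∈ Icc (-δ) T → Eqn K w p) ∧ ∀ p : ℝ × X3, p.1 ∈ Icc 0 T → ∀ i,
        Pa l n (cmp (w - wv A l a) i) p (A * G ^ N / √l) := by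
  obtain ⟨k, hk⟩ := est0 (n + 4) (by omega)
  obtain ⟨D, D1, hD⟩ := wkb (2 * (n + 4))
  obtain ⟨j, hj⟩ := pw D
  refine ⟨k + j + 5, fun T G ν A l c K a z hG h hl' hA hs gz z0 hz => ?_⟩
  have G2 := hG.hG
  have hl : 1 ≤ l := by linarith
  have G1 : 1 ≤ G := by linarith
  have l0 : 0 < l := by linarith
  have sK : SmV K := fun i => (h.sK i).1
  have sa : SmV a := fun i => (h.sa i).1
  have sK' : ContDiff ℝ ∞ K := contDiff_pi.2 sK
  have sw := wa_sm (A := A) (l := l) sK sa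
  have gwa : Gd (wa A l K a) := Gd.loc h.sa sw fun p hp => (wa_loc hp).1
  have gwv : Gd (wv A l a) := fun i => ⟨(Sm.cmul (sv_sm l) A).mul (sa i), (h.sa i).2.mul_left⟩
  have hAl : A * l ≤ 1 := (le_mul_of_one_le_right (by positivity) (one_le_pow₀ G1)).trans hs
  have est : ∀ T' ∈ Icc 0 T, ∀ w, Gd w → (∀ x, w (0, x) = wv A l a (0, x) + z x) →
      (∀ p : ℝ × X3, p.1 ∈ Icc 0 T' → Eqn K w p) → ∀ t ∈ Icc 0 T',
      ∫ x, en (2 * (n + 4)) (fun q => (w - wa A l K a) (sx l q)) (t, x) ≤ (A * G ^ k) ^ 2 / l :=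
    fun T' hT w => hk T' G ν A l c K a w z (hG.low hT) (h.low (by omega) hT.2) hl' hA
      (le_trans (mul_le_mul_of_nonneg_left (pow_le_pow_right₀ G1 (by omega)) (by positivity)) hs)
      gz z0 hz
  choose C hC using pb_all h.sK
  obtain ⟨R, hR⟩ := hk_all gwa 8
  have g0 : ∀ i, Good (cmp (fun x => wv A l a (0, x) + z x) i) := fun i =>
    (gwv.good i 0).add (gz i)
  have hi : ∀ W : ℝ × X3 → EuclideanSpace ℝ Ix, sl W 0 = (fun x => Dm (wv A l a (0, x) + z x)) →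
      ∀ x, Di (W (0, x)) = wv A l a (0, x) + z x := fun W h x =>
    (congrArg Di (congrFun h x)).trans (Di_Dm _)
  obtain ⟨δ, d0, W, w1, w2, w3, w4⟩ := upto_fin localEx (sysK_ok sK')
    (sysK_bd sK' univ C fun k t _ i α hα x => by
      have := hC k (t, x) i α hα
      rwa [dxl_eq_pdl α (sK i)] at this) ((good_pi g0).clm Dm) (T := T)
    (R := (‖Dm‖ * (Fintype.card Ix * √((√(l ^ (2 * 8) * ((A * G ^ k) ^ 2 / l)) + √R) ^ 2))) ^ 2)
    fun T' hT W w1 w2 w3 w4 => by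
      have so := sol_of sK' w1 w2 w4
      have gw : Gd fun q => Di (W q) := fun i => ⟨so.sm i, so.cs i⟩
      have gz' := gw.sub gwa
      have h5 := hk_pi (w := sl (fun q => Di (W q)) T') (n := 8) (fun i => gw.good i T') fun i => by
        have a := ((gz'.sx l0.ne').hk (est T' hT _ gw (hi W w3) so.eq T' ⟨hT.1, le_rfl⟩) i)
        have b := (hk_unsx (k := 8) (gz' i).1 hl fun α hα => a α (by omega)).nk.add (hR T' i).nk
          (gz'.good i T') (gwa.good i T')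
        refine (congrArg (fun f => Hk 8 f _) (funext fun x => ?_)).mp b.hk
        exact sub_add_cancel _ _
      simp only [sl, Dm_Di] at h5
      exact h5
  have so := sol_of (T := T) sK' w1 w2 fun p hp => w4 p ⟨by linarith [hp.1], hp.2⟩
  have gw : Gd fun q => Di (W q) := fun i => ⟨so.sm i, so.cs i⟩
  refine ⟨δ, d0, _, gw, hi W w3, fun p hp => eqn_of sK' w1 (w4 p hp), fun p hp i => ?_⟩
  have gz' := (gw.sub gwa).sx l0.ne'
  rw [← sx_surj l0.ne' p, pa_iff l0 ((gw.sub gwv) i).1]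
  have a' := (gz'.pb (n := 2 * n + 5) (p := (p.1, l * p.2.1, p.2.2))
    (est T ⟨hG.hT.1, le_rfl⟩ _ gw (hi W w3) so.eq p.1 hp) i).mono (m := n) (by omega) le_rfl
  have b := (hD T G A l c K a (h.low (by omega) le_rfl) G1 hl hA hAl (p.1, l * p.2.1, p.2.2) hp
    i).2.1.mono (m := n) (by omega) le_rfl
  have s2 : Sm fun q => A / l * cv l (sx l q) * bb K a (sx l q) i :=
    sm_sx (f := fun q => A / l * cv l q * bb K a q i) ((Sm.cmul (cv_sm l) _).mul (bb_sm sK sa i))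
  refine ((congrArg (fun f => Pb n f _ _) (funext fun q => ?_)).mp
    (pb_add a' b (gz' i).1 s2)).mono le_rfl ?_
  · simp only [P354A.cmp, Pi.sub_apply, wa, lc, wv, sv]
    ring
  · have s0 : 0 < √l := Real.sqrt_pos.2 l0
    have s1 : √l ≤ l := Real.sqrt_le_iff.2 ⟨l0.le, le_self_pow₀ hl two_ne_zero⟩
    have u1 : A / l ≤ A / √l := div_le_div_of_nonneg_left hA.le s0 s1
    have u2 : 3 * G ^ k + D * G ^ 2 ≤ G ^ (k + j + 5) := by
      have v1 : G ^ k ≤ G ^ (k + j + 2) := pow_le_pow_right₀ G1 (by omega)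
      have v2 : D * G ^ 2 ≤ G ^ (k + j + 2) := (mul_le_mul_of_nonneg_right (hj G G2).1
        (by positivity)).trans (by rw [← pow_add]; exact pow_le_pow_right₀ G1 (by omega))
      have v3 := mul_le_mul_of_nonneg_left (pow_le_pow_left₀ zero_le_two G2 3)
        (show 0 ≤ G ^ (k + j + 2) by positivity)
      have v4 : 0 ≤ G ^ (k + j + 2) := by positivity
      rw [show k + j + 5 = k + j + 2 + 3 from rfl, pow_add G (k + j + 2)]
      linarith
    have u3 := mul_le_mul_of_nonneg_left u2 (show 0 ≤ A / √l by positivity)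
    have u4 := mul_le_mul_of_nonneg_left u1 (show 0 ≤ D * G ^ 2 by positivity)
    rw [Real.sqrt_div (sq_nonneg _), Real.sqrt_sq (by positivity), mul_div_right_comm,
      mul_div_right_comm]
    linarith

end Vale.Agent.P354XB
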