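import Vale.Agent.P354XB.Core

/-!
The scaling of the lapse and of the coordinates y; the proof of CORE.
-/

open scoped ContDiff
open MeasureTheory Set Filter Topology

noncomputable section

namespace Vale.Agent.P354XB

open Vale.Agent.P354H Vale.Agent.P354C Vale.Agent.P354C.Ix Vale.Agent.P354A
open Vale.Agent.P354X (fl all_mem fl_ne)
open Vale.Agent.P354K (n0)

/-- The scaling of y. -/
def sy (r : ℝ) : ℝ × X3 →L[ℝ] ℝ × X3 := (ContinuousLinearMap.id ℝ ℝ).prodMap
  ((ContinuousLinearMap.id ℝ ℝ).prodMap (r • ContinuousLinearMap.id ℝ (ℝ × ℝ)))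

theorem sy_ap (r : ℝ) (p : ℝ × X3) : sy r p = (p.1, p.2.1, r • p.2.2) := rfl

variable {r s th : ℝ} {f : ℝ × X3 → ℝ} {V : ℝ × X3 → Ix → ℝ}

theorem sy_sy (h : r * s = 1) (p : ℝ × X3) : sy r (sy s p) = p := by
  simp [sy_ap, smul_smul, h]

theorem sm_sy (hf : Sm f) : Sm fun p => f (sy r p) := hf.comp (sy r).contDiff

theorem dv_sy (hf : Sm f) (a p : ℝ × X3) :
    dv a (fun p => f (sy r p)) p = dv (sy r a) f (sy r p) := by
  unfold dv
  rw [show fderiv ℝ (fun p => f (sy r p)) p = _ from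
    ((hf.dif _).hasFDerivAt.comp p (sy r).hasFDerivAt).fderiv]
  rfl

theorem dt_sy (hf : Sm f) : dt (fun p => f (sy r p)) = fun p => dt f (sy r p) := by
  funext p
  rw [dt_eq, dv_sy hf, dt_eq, sy_ap]
  simp only [Prod.fst_zero, smul_zero, Prod.snd_zero]
  rfl

theorem dx_sy (hf : Sm f) (j : Fin 3) : dx j (fun p => f (sy r p)) =
    fun p => (if j = 0 then 1 else r) * dx j f (sy r p) := by
  funext p
  have e1 : sy r (0, e j) = (if j = 0 then 1 else r) • ((0, e j) : ℝ × X3) := by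
    fin_cases j <;> simp [sy_ap, e]
  rw [dx_eq, dv_sy hf, e1, dv, map_smul]
  rfl

theorem dxl_sy (α : List (Fin 3)) (hf : Sm f) :
    dxl α (fun p => f (sy r p)) = fun p => r ^ (α.length - n0 α) * dxl α f (sy r p) := by
  induction α generalizing f with
  | nil => simp [dxl, n0]
  | cons j α ih =>
    have : n0 α ≤ α.length := List.count_le_length
    simp only [dxl]
    rw [dx_sy hf, dxl_cmul α (sm_sy (hf.dx j)), ih (hf.dx j), n0_cons, List.length_cons]
    funext p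
    split_ifs
    · rw [Nat.add_sub_add_right, one_mul]
    · rw [add_zero, Nat.sub_add_comm this, pow_succ]
      ring

theorem cs_sy (hr : r ≠ 0) (hf : HasCompactSupport f) : HasCompactSupport fun p => f (sy r p) :=
  hf.comp_homeomorph ((Homeomorph.refl ℝ).prodCongr ((Homeomorph.refl ℝ).prodCongr
    (Homeomorph.smulOfNeZero r hr)))

/-- The weights and the scaled field. -/
def wg (s th : ℝ) (i : Ix) : ℝ := if i = O then s else if isP i then th else 1
def sc (s th : ℝ) (U : ℝ × X3 → Ix → ℝ) (p : ℝ × X3) (i : Ix) : ℝ :=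
  wg s th i * U (sy th⁻¹ p) i

/-- The class of an unknown. -/
def cz (i : Ix) : Fin 3 := if i = O then 1 else if isP i then 2 else 0

theorem wg_eq (s th : ℝ) (i : Ix) : wg s th i = ![1, s, th] (cz i) := by
  unfold wg cz
  split_ifs <;> rfl

theorem tabO : ∀ i ∈ Ix.all, (∀ t ∈ fl i, t.1 = 0 ∨ cz t.2.1 = 2 ∧ cz t.2.2.2 = 0 ∧ cz i = 0) ∧
    (∀ t ∈ lin i, cz t.2 = 0 ∧ cz i = 0) ∧
    ∀ t ∈ quad i, cz t.2.1 = cz i ∧ cz t.2.2 = 0 ∨ cz t.2.1 = 0 ∧ cz t.2.2 = cz i := by decide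

theorem sc_sm (hV : SmV V) : SmV (sc s th V) := fun i =>
  Sm.cmul (sm_sy (f := cmp V i) (hV i)) _

theorem Gd.sc (h : Gd V) (ht : th ≠ 0) : Gd (sc s th V) := fun i =>
  ⟨sc_sm (fun i => (h i).1) i, (cs_sy (f := cmp V i) (inv_ne_zero ht) (h i).2).mul_left⟩

theorem dxl_sc (hV : SmV V) (α : List (Fin 3)) (i : Ix) (p : ℝ × X3) :
    dxl α (cmp (sc s th V) i) p =
      wg s th i * (th⁻¹ ^ (α.length - n0 α) * dxl α (cmp V i) (sy th⁻¹ p)) := by
  rw [show cmp (sc s th V) i = fun p => wg s th i * cmp V i (sy th⁻¹ p) from rfl,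
    dxl_cmul α (sm_sy (hV i)), dxl_sy α (hV i)]

theorem dt_sc (hV : SmV V) (i : Ix) : dt (cmp (sc s th V) i) = cmp (sc s th (dT V)) i := by
  rw [show cmp (sc s th V) i = fun p => wg s th i * cmp V i (sy th⁻¹ p) from rfl, dt_eq,
    dv_cmul (sm_sy (hV i)).dif, ← dt_eq, dt_sy (hV i)]
  rfl

theorem res_sc (ht : th ≠ 0) (hV : SmV V) (p : ℝ × X3) (i : Ix) :
    res (sc s th V p) (dfr (sc s th V) p) i =
      wg s th i * res (V (sy th⁻¹ p)) (dfr V (sy th⁻¹ p)) i := by
  obtain ⟨t1, t2, t3⟩ := tabO i (all_mem i)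
  have d : ∀ k j, dx j (cmp (sc s th V) k) p =
      wg s th k * (th⁻¹ ^ (1 - n0 [j]) * dx j (cmp V k) (sy th⁻¹ p)) := fun k j =>
    dxl_sc hV [j] k p
  have e1 : P354A.top (fb i ++ fa i) (sc s th V p) (cmp (sc s th V)) p =
      wg s th i * P354A.top (fb i ++ fa i) (V (sy th⁻¹ p)) (cmp V) (sy th⁻¹ p) := by
    rw [P354A.top, P354A.top, ← List.sum_map_mul_left]
    refine congrArg _ (List.map_congr_left fun t ht' => ?_)
    have := fl_ne i (all_mem i) t ht'
    rcases t1 t ht' with h | h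
    · simp [h]
    · simp only [d, sc, wg_eq, h, n0_cons, if_neg this]
      simp [n0]
      field_simp
      simp
  have e2 : linS (sc s th V p) (lin i) = wg s th i * linS (V (sy th⁻¹ p)) (lin i) := by
    rw [linS, linS, ← List.sum_map_mul_left]
    exact congrArg _ (List.map_congr_left fun t ht => by simp [sc, wg_eq, t2 t ht])
  have e3 : quadS (sc s th V p) (quad i) = wg s th i * quadS (V (sy th⁻¹ p)) (quad i) := by
    rw [quadS, quadS, ← List.sum_map_mul_left]
    refine congrArg _ (List.map_congr_left fun t ht => ?_)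
    rcases t3 t ht with h | h <;> simp only [sc, wg_eq, h, Matrix.cons_val_zero] <;> ring
  rw [res_flat, res_flat, e1, e2, e3, d, dt_sc hV]
  simp only [P354A.cmp, sc, dT, n0, List.count_singleton, beq_self_eq_true, if_true, Nat.sub_self]
  ring

theorem wg_le {r : ℝ} (h0 : 0 ≤ s) (h0' : 0 ≤ th) (h : s ≤ r) (h' : th ≤ r) (h1 : 1 ≤ r) (i : Ix) :
    |wg s th i| ≤ r := by
  unfold wg
  split_ifs
  exacts [(abs_of_nonneg h0).trans_le h, (abs_of_nonneg h0').trans_le h', abs_one.trans_le h1]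

theorem wg_inv (hs : s ≠ 0) (ht : th ≠ 0) (i : Ix) : wg s⁻¹ th⁻¹ i * wg s th i = 1 := by
  unfold wg
  split_ifs
  exacts [inv_mul_cancel₀ hs, inv_mul_cancel₀ ht, one_mul _]

theorem pa_sc (hV : SmV V) {n : ℕ} {i : Ix} {p : ℝ × X3} {l c r q : ℝ}
    (h1 : |wg s th i| ≤ r) (h0 : 0 ≤ th⁻¹) (hq : 1 ≤ q) (h2 : th⁻¹ ≤ q)
    (h : Pa l n (cmp V i) (sy th⁻¹ p) c) : Pa l n (cmp (sc s th V) i) p (r * q ^ n * c) :=
  fun α hα => by
    rw [dxl_sc hV, abs_mul, abs_mul, abs_of_nonneg (pow_nonneg h0 _), mul_assoc, mul_assoc]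
    have r0 := (abs_nonneg _).trans h1
    exact mul_le_mul h1 (mul_le_mul ((pow_le_pow_left₀ h0 h2 _).trans (pow_le_pow_right₀ hq
      (by omega))) (h α hα) (abs_nonneg _) (by positivity)) (by positivity) r0

theorem pb_pa {n : ℕ} {p : ℝ × X3} {c : ℝ} : Pa 1 n f p c ↔ Pb n f p c := by simp [Pa, Pb]

theorem pz_sc (hV : SmV V) (ht : 0 < th) {n : ℕ} {i : Ix} (hi : i ≠ O) {p : ℝ × X3} {l c : ℝ}
    (h : Pz l th n (cmp V i) (sy th⁻¹ p) (c * kp th i)) : Pa l n (cmp (sc s th V) i) p c :=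
  fun α hα => by
    have e : wg s th i * kp th i = 1 ∧ 0 < wg s th i := by
      unfold wg kp
      rw [if_neg hi]
      split_ifs
      exacts [⟨mul_inv_cancel₀ ht.ne', ht⟩, ⟨one_mul _, one_pos⟩]
    rw [dxl_sc hV, abs_mul, abs_mul, abs_of_pos e.2, abs_of_pos (a := th⁻¹ ^ _) (by positivity)]
    refine (mul_le_mul_of_nonneg_left (mul_le_mul_of_nonneg_left (h α hα) (by positivity))
      e.2.le).trans (le_of_eq ?_)
    have : th⁻¹ ^ (α.length - n0 α) * th ^ (α.length - n0 α) = 1 := by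
      rw [← mul_pow, inv_mul_cancel₀ ht.ne', one_pow]
    linear_combination c * l ^ n0 α * (th⁻¹ ^ (α.length - n0 α) * th ^ (α.length - n0 α)) * e.1 +
      c * l ^ n0 α * this

theorem core : CORE := by
  intro n
  obtain ⟨N, hN⟩ := core0 n
  refine ⟨2 * N + 3 + n, fun T G ν A l c K a z hG h hl hA hs gz ⟨R0, z0⟩ hz => ?_⟩
  have G2 := hG.hG
  obtain ⟨n0', n1, n2⟩ := hG.hν
  obtain ⟨th, ⟨t1, t2⟩, hr⟩ := h.rate
  have t0 : 0 < th := by linarith
  have t3 : th⁻¹ ≤ 1 := inv_le_one_of_one_le₀ t1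
  have t4 : 0 ≤ th⁻¹ := by positivity
  have G1 : 1 ≤ G := by linarith
  have GG : G ≤ G ^ 2 := le_self_pow₀ G1 two_ne_zero
  have hl' : G ^ 2 ≤ l := (pow_le_pow_right₀ G1 (by omega)).trans hl
  have l0 : 0 ≤ l := by linarith
  have cc := hG.cont
  set s : ℝ := ν ^ 2 / G with hs'
  have s0 : 0 < s := by positivity
  have s1 : s ≤ 1 := (div_le_self (sq_nonneg _) G1).trans (pow_le_one₀ n0'.le n1)
  have s2 : s⁻¹ ≤ G ^ 3 := by
    rw [inv_le_iff_one_le_mul₀' s0, show s * G ^ 3 = (ν * G) ^ 2 by rw [hs']; field_simp]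
    exact one_le_pow₀ n2
  have e2 : ∀ i, Ex i → i ≠ O := by rintro i (rfl | rfl | rfl | rfl) <;> decide
  have o1 := wg_le s0.le t0.le (s1.trans G1) t2 G1
  have oi := wg_inv s0.ne' t0.ne'
  have sK : SmV K := fun i => (h.sK i).1
  have sa : SmV a := fun i => (h.sa i).1
  have ea : ∀ (u v : ℝ) p i, wg u v i * a p i = a p i := fun u v p i => by
    by_cases hi : i = a1 ∨ i = a2
    · rcases hi with rfl | rfl <;> exact one_mul _
    · rw [h.pol p i (not_or.1 hi).1 (not_or.1 hi).2, mul_zero]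
  have cr : ∀ {V : ℝ × X3 → Ix → ℝ} {p i}, SmV V → Pb (2 * n + 12) (cmp V i) (sy th⁻¹ p) G →
      Pb (2 * n + 12) (cmp (sc s th V) i) p (G ^ 2) := fun hV h =>
    (pb_pa.1 (pa_sc hV (o1 _) t4 le_rfl t3 (pb_pa.2 h))).mono le_rfl
      (le_of_eq (by ring))
  have out : ∀ y : ℝ × ℝ, G ^ 2 < ‖y‖ → G < ‖th⁻¹ • y‖ := fun y hy => by
    rw [norm_smul, Real.norm_of_nonneg t4, lt_inv_mul_iff₀ t0]
    nlinarith
  obtain ⟨R1, a0⟩ := h.supp
  obtain ⟨R2, b0⟩ := h.shift
  have sz : SmV fun q : ℝ × X3 => z q.2 := fun i => (gz i).1.comp contDiff_snd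
  obtain ⟨δ, d0, w, gw, w0, we, wb⟩ := hN T (G ^ 2) ν A l (fun t => c t + ν ^ 2) (sc s th K)
    (sc s th a) (sl (sc s th fun q => z q.2) 0) ⟨by fun_prop,
      fun t => add_nonneg (hG.nn t) (sq_nonneg _), ⟨hG.hT.1, hG.hT.2.trans GG⟩, G2.trans GG,
      ⟨n0', n1, n2.trans (by gcongr)⟩, by
      have := intervalIntegral.integral_mono_on (μ := volume) hG.hT.1
        (f := fun s => ν + (c s + ν ^ 2) / ν) (g := fun s => 2 * (ν + c s / ν))
        (Continuous.intervalIntegrable (by fun_prop) _ _)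
        (Continuous.intervalIntegrable (by fun_prop) _ _) fun s _ => by
          have := div_nonneg (hG.nn s) n0'.le
          rw [add_div, sq, mul_div_cancel_right₀ _ n0'.ne']
          linarith
      rw [intervalIntegral.integral_const_mul] at this
      rw [Real.log_pow]
      push_cast
      linarith [hG.int]⟩
    ⟨Gd.sc h.sK t0.ne', Gd.sc h.sa t0.ne', fun p i h1 h2 => by simp [sc, h.pol _ i h1 h2],
      fun p hp i => ⟨fun hi => by
        by_cases ho : i = O
        · subst ho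
          exact (pa_sc (s := s) sK (r := s) (show |wg s th O| ≤ s from (abs_of_pos s0).le) t4 le_rfl t3
            (pa_of_pb G1 (h.crude (sy th⁻¹ p) hp O).1)).mono (by linarith) GG le_rfl (by
              rw [hs', one_pow, mul_one, div_mul_cancel₀ _ (by positivity)]
              linarith [hG.nn p.1])
        · exact (pz_sc sK t0 ho ((hr (sy th⁻¹ p) hp i).1 ho hi)).mono (by linarith) GG le_rfl
            (le_add_of_nonneg_right (sq_nonneg _)),
        fun hi => (pz_sc sK t0 (e2 i hi) ((hr (sy th⁻¹ p) hp i).2 hi)).mono (by linarith) GG le_rfl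
          (Real.log_le_log (by linarith) GG)⟩,
      ⟨R2, fun p hp i hi => by simp [sc, b0 (sy th⁻¹ p) hp i hi]⟩,
      fun p hp i => have k := h.crude (sy th⁻¹ p) hp i
        ⟨cr sK k.1, dt_sc sK i ▸ cr (dT_sm sK) k.2.1, cr sa k.2.2.1,
          dt_sc sa i ▸ cr (dT_sm sa) k.2.2.2⟩,
      fun p hp i => by
        have k := h.trans (sy th⁻¹ p) hp i
        rw [dt_sc sa, show dx 0 (cmp (sc s th a) i) p = _ from dxl_sc sa [0] i p]
        simp only [P354A.cmp, sc, dT, dxl, n0, List.count_singleton, beq_self_eq_true, if_true,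
          List.length_singleton, Nat.sub_self, show ∀ u v, wg u v Y11 = 1 from fun _ _ => rfl,
          show ∀ u v, wg u v Y22 = 1 from fun _ _ => rfl,
          show ∀ u v, wg u v Y12 = 1 from fun _ _ => rfl,
          show ∀ u v, wg u v Y21 = 1 from fun _ _ => rfl]
        exact ⟨by linear_combination wg s th i * k.1, by linear_combination wg s th i * k.2⟩,
      R1, fun p hp => funext fun i => by
        simp [sc, a0 (sy th⁻¹ p) (hp.imp GG.trans_lt (out _))]⟩ hl' hA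
    (le_trans (mul_le_mul_of_nonneg_left (by
      rw [← pow_mul]; exact pow_le_pow_right₀ G1 (by omega)) (by positivity)) hs)
    (fun i => ⟨P354HL.sl_sm (sc_sm sz i) 0, ((gz i).2.comp_homeomorph ((Homeomorph.refl ℝ).prodCongr
      (Homeomorph.smulOfNeZero th⁻¹ (inv_ne_zero t0.ne')))).mul_left⟩)
    ⟨R0, fun x hx => funext fun i => by
      simp [sl, sc, z0 (sy th⁻¹ (0, x)).2 (hx.imp GG.trans_lt (out _))]⟩
    (fun i x α hα => by
      have := (pa_sc sz (p := (0, x)) (o1 i) t4 le_rfl t3 fun β hβ => by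
        rw [dxl_eq_pdl β (sz i)]
        exact hz i _ β hβ) α hα
      rw [dxl_eq_pdl α (sc_sm sz i)] at this
      exact this.trans (le_of_eq (by ring)))
  have gw' := gw.sc (s := s⁻¹) (inv_ne_zero t0.ne')
  have y1 := sy_sy (inv_mul_cancel₀ t0.ne')
  have y2 := sy_sy (mul_inv_cancel₀ t0.ne')
  have ew : ∀ p i, wg s⁻¹ th⁻¹ i * wv A l (sc s th a) (sy th p) i = wv A l a p i := fun p i => by
    simp only [wv, sc, y1, ea]
    rw [mul_left_comm, ea]
    rfl
  refine ⟨δ, d0, sc s⁻¹ th⁻¹ w, gw', fun x => funext fun i => ?_, fun p hp i => ?_,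
    fun p hp i => ?_⟩
  · have := congrFun (w0 (sy th (0, x)).2) i
    simp only [sc, inv_inv, Pi.add_apply]
    rw [show w (sy th (0, x)) i = _ from this, Pi.add_apply, mul_add]
    refine congrArg₂ _ (ew (0, x) i) ?_
    simp only [sl, sc, ← mul_assoc, oi, one_mul]
    exact congrArg (fun q : ℝ × X3 => z q.2 i) (y1 (0, x))
  · have e : sc s th K + w = sc s th (K + sc s⁻¹ th⁻¹ w) := funext fun q => funext fun j => by
      simp only [sc, Pi.add_apply, inv_inv, y2]
      linear_combination (-(w q j)) * oi j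
    have := we (sy th p) hp i
    rw [e, res_sc (V := K + sc s⁻¹ th⁻¹ w) t0.ne' (fun i => (h.sK i).1.add (gw' i).1),
      res_sc t0.ne' sK, y1] at this
    exact mul_left_cancel₀ (right_ne_zero_of_mul_eq_one (oi i)) this
  · have sv' : SmV (w - wv A l (sc s th a)) := fun i =>
      (gw i).1.sub ((Sm.cmul (sv_sm l) A).mul (sc_sm sa i))
    rw [show cmp (sc s⁻¹ th⁻¹ w - wv A l a) i = cmp (sc s⁻¹ th⁻¹ (w - wv A l (sc s th a))) i from
      funext fun q => by simp only [P354A.cmp, Pi.sub_apply, ← ew q i, sc, inv_inv, mul_sub]]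
    refine (pa_sc sv' (q := G) (c := A * (G ^ 2) ^ N / √l) (wg_le (by positivity) t4 s2 (t3.trans (one_le_pow₀ G1))
      (one_le_pow₀ G1) i) (by positivity) G1 (by rwa [inv_inv])
      (by rw [inv_inv]; exact wb (sy th p) hp i)).mono l0 le_rfl le_rfl
      (le_of_eq (by ring))

end Vale.Agent.P354XB
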