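import Vale.Agent.P354GT.Rot
import Vale.Agent.P354K.Defs

/-!
The transport of a high frequency wave along a long thin slab in the double null chart:
definitions and exact statements. Coordinates p = (tau, x, y), v = tau + x.
-/

open scoped ContDiff
open MeasureTheory Set

noncomputable section

namespace Vale.Agent.P354XB

open Vale.Agent.P354n (R4)
open Vale.Agent.P354H (X3 dt dx pd pdl sl Good)
open Vale.Agent.P354C Vale.Agent.P354C.Ix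
open Vale.Agent.P354A (dxl Pb cmp Eqn)
open Vale.Agent.P354J (M3 U0 PD Ind dsl)
open Vale.Agent.P354K (n0)
open Vale.Agent.P354GT (Fu)
open Vale.Agent.P354I (r2)

/-- Bounds at a point in which every derivative in x costs the factor l. -/
def Pa (l : ℝ) (n : ℕ) (f : R4 → ℝ) (p : R4) (c : ℝ) : Prop :=
  ∀ α : List (Fin 3), α.length ≤ n → |dxl α f p| ≤ c * l ^ n0 α
def Sa (l : ℝ) (n : ℕ) (f : X3 → ℝ) (z : X3) (c : ℝ) : Prop :=
  ∀ α : List (Fin 3), α.length ≤ n → |pdl α f z| ≤ c * l ^ n0 α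

/-- Bounds in which the derivatives in y cost the factor th. -/
def Pz (l th : ℝ) (n : ℕ) (f : R4 → ℝ) (p : R4) (c : ℝ) : Prop :=
  ∀ α : List (Fin 3), α.length ≤ n → |dxl α f p| ≤ c * (l ^ n0 α * th ^ (α.length - n0 α))

/-- The coefficients of the derivatives in y gain the factor 1 / th. -/
def isP : Ix → Bool
  | .b1 | .b2 | .P11 | .P12 | .P21 | .P22 => true
  | _ => false
def kp (th : ℝ) (i : Ix) : ℝ := if isP i then th⁻¹ else 1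

/-- The wave with amplitude a. -/
def wv (A l : ℝ) (a : R4 → Ix → ℝ) (p : R4) (i : Ix) : ℝ :=
  A * Real.sin (l * (p.1 + p.2.1)) * a p i

/-- Only the components of Psi0. -/
def Pol {E : Type} (a : E → Ix → ℝ) : Prop := ∀ p i, i ≠ a1 → i ≠ a2 → a p i = 0

/-- The unknowns which do not decay; they are coefficients in the equations along l only. -/
def Ex (i : Ix) : Prop := i = b1 ∨ i = b2 ∨ i = om ∨ i = r0

/-- The size of the background at p. -/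
def Rate (n : ℕ) (G th c : ℝ) (K : R4 → Ix → ℝ) (p : R4) : Prop :=
  ∀ i, (i ≠ O → ¬ Ex i → Pz G th n (cmp K i) p (c * kp th i)) ∧
    (Ex i → Pz G th n (cmp K i) p (Real.log G * kp th i))

/-- The growth: c is the size of the background at the time t, G bounds all losses. -/
structure Gro (T G ν : ℝ) (c : ℝ → ℝ) : Prop where
  cont : Continuous c
  nn : ∀ t, 0 ≤ c t
  hT : 0 ≤ T ∧ T ≤ G
  hG : 2 ≤ G
  hν : 0 < ν ∧ ν ≤ 1 ∧ 1 ≤ ν * G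
  int : ∫ t in (0 : ℝ)..T, (ν + c t / ν) ≤ Real.log G

/-! ### The global form -/

/-- A background K and an amplitude a on all of R4. -/
structure Bgd (n : ℕ) (T G : ℝ) (c : ℝ → ℝ) (K a : R4 → Ix → ℝ) : Prop where
  sK : ∀ i, ContDiff ℝ ∞ (cmp K i) ∧ HasCompactSupport (cmp K i)
  sa : ∀ i, ContDiff ℝ ∞ (cmp a i) ∧ HasCompactSupport (cmp a i)
  pol : Pol a
  rate : ∃ th ∈ Icc 1 G, ∀ p : R4, p.1 ∈ Icc 0 T → Rate n G th (c p.1) K p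
  shift : ∃ R, ∀ p : R4, 1 < |p.1 + p.2.1 - R| → ∀ i, Ex i → K p i = 0
  crude : ∀ p : R4, p.1 ∈ Icc 0 T → ∀ i, Pb n (cmp K i) p G ∧ Pb n (dt (cmp K i)) p G ∧
    Pb n (cmp a i) p G ∧ Pb n (dt (cmp a i)) p G
  trans : ∀ p : R4, p.1 ∈ Icc 0 T → ∀ i,
    dt (cmp a i) p - dx 0 (cmp a i) p + (K p Y11 + K p Y22) * a p i = 0 ∧
      (K p Y12 - K p Y21) * a p i = 0
  supp : ∃ R, ∀ p : R4, G < |p.1 + p.2.1 - R| ∨ G < ‖p.2.2‖ → a p = 0

/-- CORE: existence on the slab and the size of the remainder. -/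
def CORE : Prop :=
  ∀ n, ∃ N : ℕ, ∀ (T G ν A l : ℝ) (c : ℝ → ℝ) (K a : R4 → Ix → ℝ) (z : X3 → Ix → ℝ),
    Gro T G ν c → Bgd (2 * n + 12) T G c K a → G ^ N ≤ l → 0 < A → A * l * G ^ N ≤ 1 →
    (∀ i, Good (cmp z i)) → (∃ R, ∀ x : X3, G < |x.1 - R| ∨ G < ‖x.2‖ → z x = 0) →
    (∀ i x, Sa l (2 * n + 8) (cmp z i) x (A * G / l)) →
    ∃ δ > 0, ∃ w : R4 → Ix → ℝ, (∀ i, ContDiff ℝ ∞ (cmp w i) ∧ HasCompactSupport (cmp w i)) ∧
      (∀ x, w (0, x) = wv A l a (0, x) + z x) ∧ (∀ p : R4, p.1 ∈ Icc (-δ) T → Eqn K w p) ∧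
      ∀ p : R4, p.1 ∈ Icc 0 T → ∀ i, Pa l n (cmp (w - wv A l a) i) p (A * G ^ N / √l)

/-- The box a < tau < b, v0 < v < v1, |y| < r. -/
def Box (a b v0 v1 r : ℝ) : Set R4 :=
  {p | p.1 ∈ Ioo a b ∧ p.1 + p.2.1 ∈ Ioo v0 v1 ∧ ‖p.2.2‖ < r}

/-- The constraints hold for the initial values u at z. -/
def Cn (u : X3 → Ix → ℝ) (z : X3) : Prop := Constr (u z) (dsl u z)

/-- SUPP: the support of the perturbation, and all structure equations. The window is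
R - 2 w < v < R + 3 w, the angular travel is less than 1/2. -/
def SUPP : Prop :=
  ∀ (T δ R w β : ℝ) (π : ℝ → ℝ) (K W : R4 → Ix → ℝ), 0 < T → 0 < δ → 0 < w → 0 < β →
    Continuous π → β * (5 * w) + 2 / β * ∫ t in (0 : ℝ)..T, π t ^ 2 < 1 / 2 →
    (∀ i, ContDiff ℝ ∞ (cmp K i) ∧ HasCompactSupport (cmp K i)) →
    (∀ i, ContDiff ℝ ∞ (cmp W i) ∧ HasCompactSupport (cmp W i)) →
    (∀ p : R4, p.1 ∈ Icc (-δ) T → Eqn K W p) →
    (∀ p : R4, p.1 ∈ Icc 0 T → |(K + W) p b1| ≤ β ∧ |(K + W) p b2| ≤ β ∧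
      ∀ i ∈ [P11, P12, P21, P22], |(K + W) p i| ≤ π p.1) →
    (∀ p ∈ Box (-δ) T (R - 2 * w) (R + 3 * w) 5, Full (K p) (dfr K p) ∧ 0 < K p O ∧
      0 < detP (K p) ∧ (0 ≤ p.1 → 0 < (K + W) p O ∧ 0 < detP ((K + W) p))) →
    (∀ z : X3, z.1 ≤ R - w ∨ 2 ≤ ‖z.2‖ → W (0, z) = 0) →
    (∀ z, (0, z) ∈ Box (-δ) T (R - 2 * w) (R + 3 * w) 5 → Cn (sl (K + W) 0) z) →
    ∃ δ' ∈ Ioc 0 δ, Fu (K + W) (Box (-δ') T (R - 2 * w) (R + 5 / 2 * w) (9 / 2)) ∧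
      ∀ p ∈ Box (-δ') T (R - 2 * w) (R + 5 / 2 * w) (9 / 2), 0 < detP ((K + W) p) ∧
        (p.1 + p.2.1 ≤ R - 3 / 2 * w ∨ 3 ≤ ‖p.2.2‖ → W p = 0)

/-! ### The local form -/

/-- The hypotheses on the background in the slab: S of the exterior theorem. -/
structure Slab (n : ℕ) (T δ R w G β : ℝ) (c π : ℝ → ℝ) (U : R4 → Ix → ℝ) : Prop where
  fu : Fu U (Box (-δ) (T + δ) (R - 3 * w) (R + 4 * w) 6)
  bd : ∀ p ∈ Box (-δ) (T + δ) (R - 3 * w) (R + 4 * w) 6, G⁻¹ ≤ U p O ∧ G⁻¹ ≤ detP (U p) ∧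
    |U p b1| ≤ β ∧ |U p b2| ≤ β ∧ (∀ i ∈ [P11, P12, P21, P22], |U p i| ≤ π p.1) ∧
    ∀ i, Pb n (cmp U i) p G ∧ Pb n (dt (cmp U i)) p G
  rate : ∃ th ∈ Icc 1 G, ∀ p ∈ Box (-δ) (T + δ) (R - 3 * w) (R + 4 * w) 6,
    Rate n G th (c p.1) U p
  cπ : Continuous π
  int : ∫ t in (0 : ℝ)..T + δ, π t ^ 2 ≤ β

/-- The amplitude which has the values α on the slice tau = T, as a function of (v, y). -/
def mu (u : Ix → ℝ) : ℝ := √(detP u) / u O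
def amp (U : R4 → Ix → ℝ) (T : ℝ) (α : X3 → Ix → ℝ) (p : R4) (i : Ix) : ℝ :=
  α (p.1 + p.2.1, p.2.2) i * (mu (U p) / mu (U (T, p.1 + p.2.1 - T, p.2.2)))

/-- A profile in the window. -/
structure Prf (n : ℕ) (R w G : ℝ) (α : X3 → Ix → ℝ) : Prop where
  sm : ∀ i, ContDiff ℝ ∞ (cmp α i)
  pol : Pol α
  supp : ∀ z : X3, z.1 ≤ R - w ∨ R + 2 * w ≤ z.1 ∨ 2 ≤ ‖z.2‖ → α z = 0
  bd : ∀ i z, Sa 1 n (cmp α i) z G

/-- The slice of the window. -/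
def Win (R w r : ℝ) : Set X3 := {z | z.1 ∈ Ioo (R - 3 * w) (R + 4 * w) ∧ ‖z.2‖ < r}

/-- SLAB: the wave arrives at the time T. -/
def SLAB : Prop :=
  ∀ (β : ℝ) (n : ℕ), ∃ w0 > 0, ∀ w ∈ Ioc 0 w0, ∃ n' N : ℕ,
    ∀ (T δ R G ν A l : ℝ) (c π : ℝ → ℝ) (U : R4 → Ix → ℝ) (α u : X3 → Ix → ℝ), 0 < T → 0 < δ →
      Gro (T + δ) G ν c → Slab n' T δ R w G β c π U → Prf n' R w G α → G ^ N ≤ l → 0 < A →
      A * l * G ^ N ≤ 1 → (∀ i, ContDiffOn ℝ ∞ (cmp u i) (Win R w 6)) →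
      (∀ z ∈ Win R w 6, Cn u z ∧ (z.1 ≤ R - w ∨ 2 ≤ ‖z.2‖ → u z = U (0, z)) ∧ ∀ i,
        Sa l n' (fun x => u x i - U (0, x) i - wv A l (amp U T α) (0, x) i) z (A * G / l)) →
      ∃ δ' ∈ Ioc 0 δ, ∃ U', Fu U' (Box (-δ') (T + δ') (R - 2 * w) (R + 5 / 2 * w) (9 / 2)) ∧
        ∀ p ∈ Box (-δ') (T + δ') (R - 2 * w) (R + 5 / 2 * w) (9 / 2), 0 < detP (U' p) ∧
          (p.1 + p.2.1 ≤ R - 3 / 2 * w ∨ 3 ≤ ‖p.2.2‖ → U' p = U p) ∧ (p.1 = 0 → U' p = u p.2) ∧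
          (0 ≤ p.1 → ∀ i, Pa l n (cmp (U' - U - wv A l (amp U T α)) i) p (A * G ^ N / √l))

/-! ### Rotation of the frame -/

/-- The unknowns in the frame e2' = c e2 + s e3, e3' = -s e2 + c e3; η 0, η 1, η 2 are the
derivatives of the angle along l, e2, e3. -/
def RT (c s : ℝ) (η : Fin 3 → ℝ) (u : Ix → ℝ) : Ix → ℝ
  | .P11 => c * u P11 + s * u P21
  | .P12 => c * u P12 + s * u P22
  | .P21 => c * u P21 - s * u P11
  | .P22 => c * u P22 - s * u P12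
  | .p1 => c * u p1 + s * u p2
  | .p2 => c * u p2 - s * u p1
  | .q1 => c * u q1 + s * u q2
  | .q2 => c * u q2 - s * u q1
  | .r0 => u r0 + η 0
  | .r1 => c * (u r1 + η 1) + s * (u Ix.r2 + η 2)
  | .r2 => c * (u Ix.r2 + η 2) - s * (u r1 + η 1)
  | .A1 => c * u A1 + s * u A2
  | .A2 => c * u A2 - s * u A1
  | .B1 => c * u B1 + s * u B2
  | .B2 => c * u B2 - s * u B1
  | .X11 => c * (c * u X11 + s * u X12) + s * (c * u X21 + s * u X22)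
  | .X12 => c * (c * u X12 - s * u X11) + s * (c * u X22 - s * u X21)
  | .X21 => c * (c * u X21 + s * u X22) - s * (c * u X11 + s * u X12)
  | .X22 => c * (c * u X22 - s * u X21) - s * (c * u X12 - s * u X11)
  | .Y11 => c * (c * u Y11 + s * u Y12) + s * (c * u Y21 + s * u Y22)
  | .Y12 => c * (c * u Y12 - s * u Y11) + s * (c * u Y22 - s * u Y21)
  | .Y21 => c * (c * u Y21 + s * u Y22) - s * (c * u Y11 + s * u Y12)
  | .Y22 => c * (c * u Y22 - s * u Y21) - s * (c * u Y12 - s * u Y11)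
  | .a1 => (c ^ 2 - s ^ 2) * u a1 + 2 * c * s * u a2
  | .a2 => (c ^ 2 - s ^ 2) * u a2 - 2 * c * s * u a1
  | .ab1 => (c ^ 2 - s ^ 2) * u ab1 + 2 * c * s * u ab2
  | .ab2 => (c ^ 2 - s ^ 2) * u ab2 - 2 * c * s * u ab1
  | .be1 => c * u be1 + s * u be2
  | .be2 => c * u be2 - s * u be1
  | .bb1 => c * u bb1 + s * u bb2
  | .bb2 => c * u bb2 - s * u bb1
  | i => u i

/-- The rotation which makes P symmetric and positive. -/
def rh (u : Ix → ℝ) : ℝ := √((u P11 + u P22) ^ 2 + (u P21 - u P12) ^ 2)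
def cs (u : Ix → ℝ) : ℝ := (u P11 + u P22) / rh u
def sn (u : Ix → ℝ) : ℝ := (u P21 - u P12) / rh u

/-- The derivative of the angle in the direction j of the slice. -/
def da (u : X3 → Ix → ℝ) (z : X3) (j : Fin 3) : ℝ :=
  cs (u z) * pd j (fun x => sn (u x)) z - sn (u z) * pd j (fun x => cs (u x)) z

/-- The values in the symmetric frame. -/
def Sy (u : X3 → Ix → ℝ) (z : X3) : Ix → ℝ :=
  RT (cs (u z)) (sn (u z)) ![2 * da u z 0 + u z b1 * da u z 1 + u z b2 * da u z 2,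
    u z P11 * da u z 1 + u z P12 * da u z 2, u z P21 * da u z 1 + u z P22 * da u z 2] (u z)

/-- ROT: the initial values of the induced data. -/
def ROT : Prop :=
  ∀ (h K : X3 → M3) (u : X3 → Ix → ℝ) (D : Set X3), PD h K → IsOpen D →
    (∀ i, ContDiffOn ℝ ∞ (cmp u i) D) →
    (∀ z ∈ D, 0 < u z O ∧ 0 < detP (u z) ∧ Cn u z ∧ Ind (u z) (h z) (K z)) →
    ∀ z ∈ D, U0 h K z = Sy u z

/-! ### The two ends of the slab -/

/-- A kick in a thin window. -/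
structure Kick (Λ R w A : ℝ) (u u' : X3 → Ix → ℝ) : Prop where
  bound : ∀ i (α : List (Fin 3)), α.length ≤ 4 → (0 : Fin 3) ∉ α → ∀ z : X3,
    z.1 ∈ Ioo (R - 2 * w) (R + 5 / 2 * w) → r2 z ≤ 16 →
      |pdl α (fun y => u' y i - u y i) z| ≤ Λ * A
  low : ENNReal.ofReal (w / 3) ≤ volume {x ∈ Ioo R (R + w) | ∀ y : ℝ × ℝ,
    y.1 ^ 2 + y.2 ^ 2 ≤ 2 → A ≤ |u' (x, y) a1 - u (x, y) a1|}

/-- The slice tau = T as a function of (v, y). -/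
def top (U : R4 → Ix → ℝ) (T : ℝ) (z : X3) : Ix → ℝ := U (T, z.1 - T, z.2)

/-- ENDK: a profile for which the arriving wave is a kick. -/
def ENDK : Prop :=
  ∃ Λ : ℝ, ∀ w > 0, ∀ n' : ℕ, ∃ n'' N : ℕ, ∀ (T δ R G β : ℝ) (c π : ℝ → ℝ) (U : R4 → Ix → ℝ),
    0 < T → 0 < δ → 2 ≤ G → Slab n'' T δ R w G β c π U → ∃ α, Prf n' R w (G ^ N) α ∧
      ∀ (δ' A l E : ℝ) (U' : R4 → Ix → ℝ), 0 < δ' → G ^ N ≤ l → 0 < A → A * G ^ N ≤ 1 →
        E * G ^ N ≤ A → Fu U' (Box (-δ') (T + δ') (R - 2 * w) (R + 5 / 2 * w) (9 / 2)) →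
        (∀ p ∈ Box (-δ') (T + δ') (R - 2 * w) (R + 5 / 2 * w) (9 / 2), p.1 = T →
          ∀ i, Pa l 5 (cmp (U' - U - wv A l (amp U T α)) i) p E) →
        Kick Λ R w A (Sy (top U T)) (Sy (top U' T))

/-- The entries of a matrix field. -/
def ent (h : X3 → M3) (i j : Fin 3) (z : X3) : ℝ := h z i j

/-- PREP: purely ingoing data in the chart of the slab. The amplitudes γ, κ are transverse and
trace free; a small correction does not change the leading term. -/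
def PREP : Prop :=
  ∀ n : ℕ, ∃ n' N : ℕ, ∀ (R w G : ℝ) (h K : X3 → M3) (a : X3 → Ix → ℝ), PD h K → 2 ≤ G →
    Prf n' R w G a →
    (∀ z ∈ Win R w 6, (∀ v : Fin 3 → ℝ, G⁻¹ * ∑ i, v i ^ 2 ≤ ∑ i, ∑ j, v i * h z i j * v j) ∧
      ∀ i j, Sa 1 n' (ent h i j) z G ∧ Sa 1 n' (ent K i j) z G) →
    ∃ γ κ : X3 → M3, (∀ i j, ContDiff ℝ ∞ (ent γ i j) ∧ ContDiff ℝ ∞ (ent κ i j)) ∧
      (∀ z, (γ z).IsSymm ∧ (κ z).IsSymm ∧ (a z = 0 → γ z = 0 ∧ κ z = 0) ∧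
        (∀ j, ((h z)⁻¹ * γ z) 0 j = 0 ∧ ((h z)⁻¹ * κ z) 0 j = 0) ∧
        ((h z)⁻¹ * γ z).trace = 0 ∧ ((h z)⁻¹ * κ z).trace = 0) ∧
      (∀ z i j, Sa 1 (n + 2) (ent γ i j) z (G ^ N) ∧ Sa 1 (n + 2) (ent κ i j) z (G ^ N)) ∧
      ∀ (A l : ℝ) (h' K' : X3 → M3), 1 ≤ l → 0 < A → A * l * G ^ N ≤ 1 → PD h' K' →
        ∀ z ∈ Win R w 6, (∀ i j,
          let f := fun x => h' x i j - h x i j - A / l ^ 2 * Real.sin (l * x.1) * γ x i j
          let g := fun x => K' x i j - K x i j - A / l * Real.cos (l * x.1) * κ x i j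
          Sa l n f z (A * G / l) ∧ Sa l n g z (A * G / l) ∧ ∀ k, Sa l n (pd k f) z (A * G / l) ∧
            Sa l n (pd k g) z (A * G / l) ∧ ∀ m, Sa l n (pd m (pd k f)) z (A * G / l)) →
          ∀ i, Sa l n (fun x => U0 h' K' x i - U0 h K x i - A * Real.sin (l * x.1) * a x i) z
            (A * G ^ N / l)

end Vale.Agent.P354XB
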