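import Vale.Agent.P354AS.Xen

/-!
The energy estimate with a time dependent rate, a source, and a large constant speed in x.
-/

open scoped ContDiff
open MeasureTheory Set Filter Topology

namespace Vale.Agent.P354XB

open Vale.Agent.P354H Vale.Agent.P354C Vale.Agent.P354A Vale.Agent.P354X
open Vale.Agent.P354HU (deriv_int int_sl cont_fd int_dx)
open Vale.Agent.P354AS (ceq0 one_bdS)

/-- The energy inequality with a time dependent rate. -/
theorem energyT {f h q : ℝ × X3 → ℝ} (a : Idn f h) {T t Q : ℝ} {m : ℝ → ℝ} (hm : Continuous m)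
    (m0 : ∀ s, 0 ≤ m s) (hQ : ∀ s ∈ Icc 0 T, Integrable (fun x => q (s, x)) ∧ ∫ x, q (s, x) ≤ Q)
    (Q0 : 0 ≤ Q) (H : ∀ p : ℝ × X3, p.1 ∈ Icc 0 T → h p ≤ m p.1 * f p + q p) (ht : t ∈ Icc 0 T) :
    ∫ x, f (t, x) ≤ Real.exp (∫ s in (0 : ℝ)..t, m s) * ((∫ x, f (0, x)) + t * Q) := by
  obtain ⟨g, g1, g2⟩ := a.ex
  have hf := a.cd
  have dM : ∀ s, HasDerivAt (fun s => ∫ r in (0 : ℝ)..s, m r) (m s) s := fun s =>
    (hm.integral_hasStrictDerivAt 0 s).hasDerivAt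
  have d : ∀ s, HasDerivAt (fun s => Real.exp (-∫ r in (0 : ℝ)..s, m r) * (∫ x, f (s, x)) - s * Q)
      (Real.exp (-∫ r in (0 : ℝ)..s, m r) * (-m s) * (∫ x, f (s, x)) +
        Real.exp (-∫ r in (0 : ℝ)..s, m r) * (∫ x, dt f (s, x)) - 1 * Q) s :=
    fun s => ((dM s).neg.exp.mul (deriv_int hf a.cs s)).sub ((hasDerivAt_id s).mul_const Q)
  have h1 : Real.exp (-∫ r in (0 : ℝ)..t, m r) * (∫ x, f (t, x)) - t * Q ≤
      Real.exp (-∫ r in (0 : ℝ)..0, m r) * (∫ x, f (0, x)) - 0 * Q := by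
    refine antitoneOn_of_deriv_nonpos (convex_Icc 0 T)
      (fun s _ => (d s).continuousAt.continuousWithinAt)
      (fun s _ => (d s).differentiableAt.differentiableWithinAt) (fun s hs => ?_)
      (left_mem_Icc.2 (ht.1.trans ht.2)) ht ht.1
    have hs' := interior_subset hs
    have i1 : ∀ j, Integrable fun x => dx j (g j) (s, x) := fun j =>
      int_sl (cont_fd (g1 j).1 _) ((g1 j).2.fderiv_apply ℝ _) s
    have i2 := ((int_sl hf.continuous a.cs s).const_mul (m s))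
    have i3 := (hQ s hs').1
    have b := integral_mono (int_sl (cont_fd hf (1, 0)) (a.cs.fderiv_apply ℝ _) s)
      ((integrable_finsetSum _ fun j _ => i1 j).add (i2.add i3)) fun x =>
        (g2 (s, x)).trans_le (add_le_add_right (H (s, x) hs') _)
    rw [integral_add' (integrable_finsetSum _ fun j _ => i1 j) (i2.add i3), integral_add' i2 i3,
      integral_finsetSum _ fun j _ => i1 j, integral_const_mul,
      Finset.sum_eq_zero fun j _ => int_dx (g1 j).1 (g1 j).2 j s, zero_add] at b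
    rw [(d s).deriv]
    have c := mul_le_mul_of_nonneg_left (b.trans (add_le_add_right (hQ s hs').2 _))
      (Real.exp_pos (-∫ r in (0 : ℝ)..s, m r)).le
    have e : Real.exp (-∫ r in (0 : ℝ)..s, m r) ≤ 1 := Real.exp_le_one_iff.2
      (neg_nonpos.2 (intervalIntegral.integral_nonneg hs'.1 fun r _ => m0 r))
    have e' := mul_le_mul_of_nonneg_right e Q0
    unfold dt
    linarith
  rw [intervalIntegral.integral_same, neg_zero, Real.exp_zero, Real.exp_neg] at h1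
  rw [← inv_mul_le_iff₀ (Real.exp_pos _)]
  linarith

theorem dmp_le : ∀ i ∈ Ix.all, dmp i ≤ 4 := by decide

/-- The equation with the speed 1 + L in x and the source f. -/
def EqL (L : ℝ) (K f z : ℝ × X3 → Ix → ℝ) (p : ℝ × X3) : Prop :=
  ∀ i, GG 0 K z i p + L * c1 i * dx 0 (cmp z i) p + f p i = 0

theorem ub0 (K : ℝ × X3 → Ix → ℝ) (i : Ix) : Ub 0 K i = cmp K i := by
  funext p
  cases i <;> simp [Ub, U0, P354A.cmp]

/-- The unknowns which do not decay. -/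
def isb : Ix → Bool
  | .b1 | .b2 | .om | .r0 => true
  | _ => false
noncomputable def ib (i : Ix) : ℝ := if isb i then 1 else 0

theorem tabb : ∀ i ∈ Ix.all, (cL i = 0 ∨ cL i = 1) ∧ c0 i + c1 i = 2 * cL i ∧
    (∀ t ∈ pairs i, t.1 = 0 ∨
      (isb t.2.1 = false ∨ cL i = 1 ∧ cL t.2.2 = 1 ∧ isW t.2.2 = isW i) ∧
      (isb t.2.2 = false ∨ cL i = 1 ∧ cL t.2.1 = 1 ∧ isW t.2.1 = isW i)) ∧
    ∀ t ∈ fl i, t.1 = 0 ∨ isb t.2.1 = false ∨ t.2.2.2 = i ∧ cL i = 1 := by decide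

theorem cL_nn (i : Ix) : (0 : ℝ) ≤ cL i ∧ (cL i : ℝ) ≤ 1 := by
  rcases (tabb i (all_mem i)).1 with h | h <;> simp [h]

theorem ib_nn (i : Ix) : 0 ≤ ib i ∧ ib i ≤ 1 := by
  unfold ib
  split_ifs <;> simp

theorem rb_le2 {ν θ γ H H' : ℝ} {hi : Ix → ℝ} (h0 : 0 < ν) (h1 : ν ≤ 1) (hθ : 0 ≤ θ) (hγ : 0 ≤ γ)
    (hH : 0 ≤ H) (hH' : 0 ≤ H') (h2 : ∀ j, 0 ≤ hi j ∧ hi j ≤ H / rr ν j)
    (h3 : ∀ j, cL j = 1 → rr ν j * hi j ≤ H') (n : ℕ) (i : Ix) :
    rr ν i * RB n i (fun j => θ + γ * ib j) (fun _ => θ) hi ≤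
      (ν * cl i + 2 ^ n * (4 * θ / ν) * cq i) * H + 2 ^ n * cq i * γ * 2 * (cL i * H') := by
  have r0 := h0.trans_le (rr_bd h1 i).1
  have y : ∀ j k, (isb j = false ∨ cL i = 1 ∧ cL k = 1 ∧ isW k = isW i) →
      γ * ib j * hi k ≤ γ * (cL i * H' / rr ν i) := fun j k h => by
    rw [mul_assoc]
    refine mul_le_mul_of_nonneg_left ?_ hγ
    rcases h with h | ⟨a, b, c⟩
    · rw [show ib j = 0 by simp [ib, h], zero_mul]
      exact div_nonneg (mul_nonneg (cL_nn i).1 hH') r0.le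
    · rw [a, le_div_iff₀' r0, show rr ν i = rr ν k by simp only [rr, c], Int.cast_one, one_mul]
      exact (mul_le_mul_of_nonneg_left (mul_le_of_le_one_left (h2 k).1 (ib_nn j).2)
        (h0.le.trans (rr_bd h1 k).1)).trans (h3 k b)
  have a : RB n i (fun j => θ + γ * ib j) (fun _ => θ) hi ≤
      RB n i (fun _ => θ) (fun _ => θ) (fun j => H / rr ν j) +
        2 ^ n * (cq i * (2 * (γ * (cL i * H' / rr ν i)))) := by
    unfold RB
    rw [add_assoc, ← mul_add, cq, ← List.sum_map_mul_right, ← List.sum_map_add]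
    refine add_le_add (lsum_le _ fun t _ => mul_le_mul_of_nonneg_left (h2 _).2 (abs_nonneg _))
      (mul_le_mul_of_nonneg_left (lsum_le _ fun t ht => ?_) (by positivity))
    rw [← mul_add]
    have u1 := mul_le_mul_of_nonneg_left (h2 t.2.1).2 hθ
    have u2 := mul_le_mul_of_nonneg_left (h2 t.2.2).2 hθ
    rcases (tabb i (all_mem i)).2.2.1 t ht with h | ⟨h, h'⟩
    · simp [h]
    · refine mul_le_mul_of_nonneg_left ?_ (abs_nonneg _)
      simp only
      linarith [y _ _ h, y _ _ h']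
  have b := mul_le_mul_of_nonneg_left a r0.le
  have c := rb_le h0 h1 hθ hH n i
  have d : rr ν i * (2 ^ n * (cq i * (2 * (γ * (cL i * H' / rr ν i))))) =
      2 ^ n * cq i * γ * 2 * (cL i * H') := by field_simp
  linarith

theorem div_bd {ν θ γ H : ℝ} (h0 : 0 < ν) (h1 : ν ≤ 1) (hθ : 0 ≤ θ) (hγ : 0 ≤ γ) (i : Ix)
    {z : Ix → ℝ} {d : Fin 3 → Ix → ℝ} (hz : ∀ j, rr ν j * |z j| ≤ H)
    (hd : ∀ j m, |d j m| ≤ 2 * θ + γ * ib m) :
    rr ν i ^ 2 * ((fl i).map fun t => (t.1 : ℝ) * (d t.2.2.1 t.2.1 * (z i * z t.2.2.2))).sum ≤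
      cf i * (2 * θ / ν * H ^ 2 + γ * cL i * (rr ν i ^ 2 * (z i * z i))) := by
  have hr := rr_bd h1
  have hr0 : ∀ j, 0 ≤ rr ν j := fun j => h0.le.trans (hr j).1
  have hH : 0 ≤ H := (mul_nonneg (hr0 i) (abs_nonneg _)).trans (hz i)
  rw [cf, ← List.sum_map_mul_right, ← List.sum_map_mul_left]
  refine lsum_le _ fun t ht => (le_abs_self _).trans ?_
  have a : rr ν i * |z t.2.2.2| ≤ H / ν := by
    rw [le_div_iff₀ h0]
    refine le_trans ?_ (hz t.2.2.2)
    have := mul_le_mul (hr i).2 (hr t.2.2.2).1 h0.le zero_le_one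
    nlinarith [abs_nonneg (z t.2.2.2)]
  have p0 := mul_nonneg (mul_nonneg (hr0 i) (abs_nonneg (z i)))
    (mul_nonneg (hr0 i) (abs_nonneg (z t.2.2.2)))
  have b := mul_le_mul_of_nonneg_left (mul_le_mul (hz i) a
    (mul_nonneg (hr0 i) (abs_nonneg _)) hH) (show 0 ≤ 2 * θ by positivity)
  have c := mul_le_mul_of_nonneg_right (hd t.2.2.1 t.2.1) p0
  have u3 := mul_nonneg (mul_nonneg hγ (cL_nn i).1)
    (mul_nonneg (sq_nonneg (rr ν i)) (mul_self_nonneg (z i)))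
  have e1 : 2 * θ / ν * H ^ 2 = 2 * θ * (H * (H / ν)) := by ring
  rw [mul_left_comm, abs_mul, abs_mul, abs_mul, abs_mul, abs_of_nonneg (sq_nonneg (rr ν i)), e1]
  rcases (tabb i (all_mem i)).2.2.2 t ht with h | h | ⟨h, h'⟩
  · simp [h]
  · refine mul_le_mul_of_nonneg_left ?_ (abs_nonneg _)
    rw [show ib t.2.1 = 0 by simp [ib, h]] at c
    linarith
  · refine mul_le_mul_of_nonneg_left ?_ (abs_nonneg _)
    have u4 := mul_le_mul_of_nonneg_right (mul_le_of_le_one_right hγ (ib_nn t.2.1).2) p0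
    rw [h'] at u3 ⊢
    rw [h] at b c u4 ⊢
    have u5 := abs_mul_abs_self (z i)
    rw [← u5]
    push_cast
    linarith

/-- A weight which is a decreasing function of v. -/
structure Gh (L C φ0 : ℝ) (φ γ : ℝ × X3 → ℝ) : Prop where
  cd : ContDiff ℝ 1 φ
  pos : 0 < φ0
  bd : ∀ p, φ0 ≤ φ p ∧ φ p ≤ 1 ∧ 0 ≤ γ p
  der : ∀ p, (1 + L) * dx 0 φ p = dt φ p ∧ (∀ j ≠ 0, dx j φ p = 0) ∧ dt φ p ≤ -(C * γ p) * φ p

theorem prin_mul {L C φ0 : ℝ} {φ γ : ℝ × X3 → ℝ} (h : Gh L C φ0 φ γ) {z : Ix → ℝ × X3 → ℝ}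
    (hz : ∀ i, ContDiff ℝ 1 (z i)) (U : Ix → ℝ) (i : Ix) (p : ℝ × X3) :
    prin 0 U (fun j q => φ q * z j q) i p + L * c1 i * dx 0 (fun q => φ q * z i q) p =
      φ p * (prin 0 U z i p + L * c1 i * dx 0 (z i) p) + 2 * cL i * dt φ p * z i p := by
  have e1 : top (fb i) U (fun j q => φ q * z j q) p + top (fa i) U (fun j q => φ q * z j q) p =
      φ p * (top (fb i) U z p + top (fa i) U z p) := by
    rw [← top_append, ← top_append, top, top, ← List.sum_map_mul_left]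
    refine congrArg _ (List.map_congr_left fun t ht => ?_)
    have := (h.der p).2.1 _ (fl_ne i (all_mem i) t ht)
    simp only [dx] at this ⊢
    rw [fv_mul h.cd (hz _), this]
    ring
  have e2 : (c0 i : ℝ) + c1 i = 2 * cL i := by exact_mod_cast (tabb i (all_mem i)).2.1
  have e3 := (h.der p).1
  simp only [prin, dt, dx, fv_mul h.cd (hz _)] at e3 ⊢
  linear_combination e1 + c1 i * z i p * e3 + fderiv ℝ φ p (1, 0) * z i p * e2

end Vale.Agent.P354XB
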