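import Vale.Agent.P354XB.En

/-!
The energy estimate with the weight in v.
-/

open scoped ContDiff
open MeasureTheory Set Filter Topology

namespace Vale.Agent.P354XB

open Vale.Agent.P354H Vale.Agent.P354C Vale.Agent.P354A Vale.Agent.P354X
open Vale.Agent.P354HU (int_sl)
open Vale.Agent.P354AS (ceq0)

/-- The energy estimate. -/
theorem xenW (m : ℕ) (hm : 1 ≤ m) : ∃ C : ℝ, 1 ≤ C ∧
    ∀ (L T ν Q φ0 : ℝ) (θ : ℝ → ℝ) (φ γ : ℝ × X3 → ℝ) (K f z : ℝ × X3 → Ix → ℝ), 0 < ν → ν ≤ 1 →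
      Continuous θ → (∀ s, 0 ≤ θ s) → Gh L C φ0 φ γ → (∀ i, ContDiff ℝ ∞ (cmp K i)) →
      (∀ i, ContDiff ℝ ∞ (cmp f i) ∧ HasCompactSupport (cmp f i)) →
      (∀ i, ContDiff ℝ ∞ (cmp z i) ∧ HasCompactSupport (cmp z i)) →
      (∀ p : ℝ × X3, p.1 ∈ Icc 0 T → EqL L K f z p ∧ ∀ i,
        Pb (2 * m + 1) (cmp K i) p (θ p.1 + γ p * ib i) ∧ Pb m (cmp z i) p (θ p.1)) →
      (∀ s ∈ Icc 0 T, ∫ x, en (2 * m) f (s, x) ≤ Q) → ∀ t ∈ Icc 0 T,
        ∫ x, en (2 * m) z (t, x) ≤ C / (ν * φ0) ^ 2 *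
          Real.exp (C * ∫ s in (0 : ℝ)..t, (ν + θ s / ν)) *
          ((∫ x, en (2 * m) z (0, x)) + t * Q / ν) := by
  set n := 2 * m with hn
  set N : ℝ := ((words n).length : ℝ) with hN
  have hN0 : 0 ≤ N := Nat.cast_nonneg _
  have hl : 0 ≤ ∑ i, cl i := Finset.sum_nonneg fun i _ => cl_nn i
  have hq : 0 ≤ ∑ i, cq i := Finset.sum_nonneg fun i _ => cq_nn i
  have hc : 0 ≤ ∑ i, cf i := Finset.sum_nonneg fun i _ => cf_nn i
  set C : ℝ := 2 + (N + 1) * (2 * ∑ i, cl i + 2 ^ n * 8 * ∑ i, cq i + 2 * ∑ i, cf i) with hC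
  have C0 : 2 ≤ C := le_add_of_nonneg_right (by positivity)
  refine ⟨C, by linarith, fun L T ν Q φ0 θ φ γ K f w h0 h1 cθ θ0 hφ hK hsf hw H hQ t ht => ?_⟩
  have hr := rr_bd h1
  have hr0 : ∀ j, 0 < rr ν j := fun j => h0.trans_le (hr j).1
  have f0 := hφ.pos
  have hU : ∀ i, ContDiff ℝ 1 (cmp (K + w) i) := fun i => ((hK i).add (hw i).1).of_le (by simp)
  have s0 : ∀ α i, ContDiff ℝ 1 (dxl α (cmp w i)) := fun α i =>
    (P354X.dxl_sm α (hw i).1).of_le (by simp)
  have s1 : ∀ α i, ContDiff ℝ 1 fun q => φ q * dxl α (cmp w i) q := fun α i => hφ.cd.mul (s0 α i)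
  have s2 : ∀ α i, HasCompactSupport fun q => φ q * dxl α (cmp w i) q := fun α i =>
    (P354X.dxl_cs α (hw i).2).mul_left
  have hI := Idn.lsum (words n) fun α _ => (one_word 0 ν (ψ := fun _ => 1) contDiff_const hU
    (z := fun j q => φ q * dxl α (cmp w j) q) (s1 α) (s2 α)).add (Idn.sum Finset.univ fun i =>
      Idn.div (G := fun p => rr ν i ^ 2 * (L * c1 i) *
        (φ p * dxl α (cmp w i) p * (φ p * dxl α (cmp w i) p)))
        (contDiff_const.mul ((s1 α i).mul (s1 α i))) (s2 α i).mul_right.mul_left 0)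
  have hc0 : ∀ i, (1 : ℝ) ≤ c0 i ∧ (c0 i : ℝ) ≤ 2 := c0_mem
  have hf : ∀ p : ℝ × X3, φ p ^ 2 * ∑ i, rr ν i ^ 2 * c0 i *
      ((words n).map fun α => dxl α (cmp w i) p ^ 2).sum = ((words n).map fun α => ∑ i, 1 *
        (rr ν i ^ 2 * c0 i * (φ p * dxl α (cmp w i) p * (φ p * dxl α (cmp w i) p))) +
          ∑ _ : Ix, (0 : ℝ)).sum := by
    intro p
    simp only [lsum_sum, one_mul, Finset.sum_const_zero, add_zero, Finset.mul_sum,
      ← List.sum_map_mul_left]
    exact Finset.sum_congr rfl fun i _ => congrArg _ (List.map_congr_left fun α _ => by ring)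
  have hs : ∀ (w : ℝ × X3 → Ix → ℝ) (p : ℝ × X3) i,
      0 ≤ ((words n).map fun α => dxl α (cmp w i) p ^ 2).sum :=
    fun w p i => lsum_nn _ fun _ _ => sq_nonneg _
  have hen : ∀ (w : ℝ × X3 → Ix → ℝ) (p : ℝ × X3), 0 ≤ en n w p := fun w p =>
    Finset.sum_nonneg fun i _ => hs w p i
  have ie : ∀ {w : ℝ × X3 → Ix → ℝ}, (∀ i, ContDiff ℝ ∞ (cmp w i) ∧ HasCompactSupport (cmp w i)) →
      ∀ t, Integrable fun x : X3 => en n w (t, x) := fun h t => by
    simpa using en_id (ψ := fun _ => 1) contDiff_const (fun i => (h i).1) (fun i => (h i).2) n t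
  have Q0 : 0 ≤ Q := (integral_nonneg fun x => hen f (t, x)).trans (hQ t ht)
  have f1 : ∀ p, φ0 ^ 2 ≤ φ p ^ 2 ∧ φ p ^ 2 ≤ 1 := fun p =>
    ⟨pow_le_pow_left₀ f0.le (hφ.bd p).1 2, pow_le_one₀ (f0.le.trans (hφ.bd p).1) (hφ.bd p).2.1⟩
  have hE := energyT hI (m := fun s => C * (ν + θ s / ν)) (q := fun p => 1 / ν * en n f p)
    (Q := 1 / ν * Q) (by fun_prop) (fun s => by have := θ0 s; positivity)
    (fun s hs => ⟨(ie hsf s).const_mul _, by
      rw [integral_const_mul]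
      exact mul_le_mul_of_nonneg_left (hQ s hs) (by positivity)⟩) (by positivity) (fun p hp => ?_) ht
  · have hf' := fun t x => hf (t, x)
    have hi : ∀ t, Integrable fun x : X3 => φ (t, x) ^ 2 * ∑ i, rr ν i ^ 2 * c0 i *
        ((words n).map fun α => dxl α (cmp w i) (t, x) ^ 2).sum := fun t =>
      (int_sl hI.cd.continuous hI.cs t).congr (Eventually.of_forall fun x => (hf' t x).symm)
    rw [← integral_congr_ae (Eventually.of_forall (hf' t)),
      ← integral_congr_ae (Eventually.of_forall (hf' 0)), intervalIntegral.integral_const_mul] at hE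
    have a := integral_mono ((ie hw t).const_mul ((ν * φ0) ^ 2)) (hi t) fun x => by
      simp only [en]
      rw [mul_pow, mul_comm (ν ^ 2), mul_assoc, Finset.mul_sum _ _ (ν ^ 2)]
      refine mul_le_mul (f1 _).1 (Finset.sum_le_sum fun i _ =>
        mul_le_mul_of_nonneg_right ?_ (hs _ _ i))
        (Finset.sum_nonneg fun i _ => mul_nonneg (sq_nonneg _) (hs _ _ i)) (sq_nonneg _)
      exact (pow_le_pow_left₀ h0.le (hr i).1 2).trans
        (le_mul_of_one_le_right (sq_nonneg _) (hc0 i).1)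
    have b := integral_mono (hi 0) ((ie hw 0).const_mul 2) fun x => by
      simp only [en]
      rw [Finset.mul_sum _ _ 2]
      refine (mul_le_of_le_one_left (Finset.sum_nonneg fun i _ => mul_nonneg
        (mul_nonneg (sq_nonneg _) (by linarith [(hc0 i).1])) (hs _ _ i)) (f1 _).2).trans
        (Finset.sum_le_sum fun i _ => mul_le_mul_of_nonneg_right ?_ (hs _ _ i))
      have := pow_le_one₀ (n := 2) (hr0 i).le (hr i).2
      nlinarith [(hc0 i).1, (hc0 i).2]
    rw [integral_const_mul] at a b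
    have q1 : 0 ≤ ∫ x : X3, en n w (0, x) := integral_nonneg fun x => hen w (0, x)
    have q2 : 0 ≤ t * Q / ν := by have := ht.1; positivity
    have q3 : 2 * (∫ x : X3, en n w (0, x)) + t * (1 / ν * Q) ≤
        C * ((∫ x : X3, en n w (0, x)) + t * Q / ν) := by
      have e : t * (1 / ν * Q) = t * Q / ν := by ring
      nlinarith
    have c := a.trans (hE.trans (mul_le_mul_of_nonneg_left
      ((add_le_add_left b _).trans q3) (Real.exp_pos _).le))
    rw [← le_div_iff₀' (by positivity)] at c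
    exact c.trans (le_of_eq (by ring))
  obtain ⟨he, hb0⟩ := H p hp
  have hθ := θ0 p.1
  have hγ := (hφ.bd p).2.2
  set S : Ix → ℝ := fun i => ((words n).map fun α => dxl α (cmp w i) p ^ 2).sum with hS
  have S0 : ∀ i, 0 ≤ S i := hs w p
  set F := ∑ i, rr ν i ^ 2 * S i with hF
  have hF0 : 0 ≤ F := Finset.sum_nonneg fun i _ => mul_nonneg (sq_nonneg _) (S0 i)
  have z1 : ∀ α ∈ words n, ∀ j, |dxl α (cmp w j) p| ≤ √(S j) := fun α hα j =>
    Real.abs_le_sqrt (le_lsum (f := fun α => dxl α (cmp w j) p ^ 2) (fun _ => sq_nonneg _) hα)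
  have z2 : ∀ j, rr ν j * √(S j) ≤ √F := fun j => by
    refine Real.le_sqrt_of_sq_le ?_
    rw [mul_pow, Real.sq_sqrt (S0 j)]
    exact Finset.single_le_sum (f := fun i => rr ν i ^ 2 * S i)
      (fun i _ => mul_nonneg (sq_nonneg _) (S0 i)) (Finset.mem_univ j)
  have hz : ∀ α ∈ words n, ∀ j, rr ν j * |dxl α (cmp w j) p| ≤ √F := fun α hα j =>
    (mul_le_mul_of_nonneg_left (z1 α hα j) (hr0 j).le).trans (z2 j)
  set FL := ∑ i, cL i * (rr ν i ^ 2 * S i) with hFL
  have FL1 : ∀ i, 0 ≤ cL i * (rr ν i ^ 2 * S i) := fun i =>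
    mul_nonneg (cL_nn i).1 (mul_nonneg (sq_nonneg _) (S0 i))
  have FL0 : 0 ≤ FL := Finset.sum_nonneg fun i _ => FL1 i
  have z3 : ∀ j, cL j = 1 → rr ν j * √(S j) ≤ √FL := fun j hj => by
    refine Real.le_sqrt_of_sq_le (le_trans (le_of_eq ?_) (Finset.single_le_sum
      (f := fun i => cL i * (rr ν i ^ 2 * S i)) (fun i _ => FL1 i) (Finset.mem_univ j)))
    simp only [mul_pow, Real.sq_sqrt (S0 j), hj, Int.cast_one, one_mul]
  have hd : ∀ j i, |dx j (cmp (K + w) i) p| ≤ 2 * θ p.1 + γ p * ib i := by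
    intro j i
    have a := (hb0 i).1 [j] (by simp)
    have b := (hb0 i).2 [j] (by simpa using hm)
    rw [dx_eq, dv_cmp hK fun i => (hw i).1]
    exact (abs_add_le _ _).trans ((add_le_add a b).trans (le_of_eq (by ring)))
  have hb : ∀ α ∈ words n, ∀ i, rr ν i * |(prin 0 ((K + w) p) (fun j => dxl α (cmp w j)) i p +
      L * c1 i * dx 0 (dxl α (cmp w i)) p) + dxl α (cmp f i) p| ≤
      (ν * cl i + 2 ^ n * (4 * θ p.1 / ν) * cq i) * √F +
        2 ^ n * cq i * γ p * 2 * (cL i * √FL) := fun α hα i => by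
    have sG := (GG_dxl (k := 0) hK (fun i => (hw i).1) i α).1
    have sD := Sm.cmul (Sm.dx (hw i).1 0) (L * c1 i)
    have z := dxl_of_zero (p := p) α ((sG.add sD).add (hsf i).1) fun x => (H (p.1, x) hp).1 i
    rw [dxl_add α (sG.add sD) (hsf i).1, dxl_add α sG sD, dxl_cmul α (Sm.dx (hw i).1 0), dx_eq,
      dxl_dv α (hw i).1, ← dx_eq] at z
    have y := ceq0 0 (g := fun j => θ p.1 + γ p * ib j) (lo := fun _ => θ p.1)
      (hi := fun j => √(S j)) (p := p) hK (fun i => (hw i).1) (le_of_eq hn)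
      (fun i => ub0 K i ▸ (hb0 i).1) (fun i => (hb0 i).2)
      (fun j β hβ => z1 β (P354X.mem_words.2 hβ) j) (P354X.mem_words.1 hα) i
    refine le_trans (mul_le_mul_of_nonneg_left ((le_of_eq (congrArg _ ?_)).trans y) (hr0 i).le)
      (rb_le2 h0 h1 hθ hγ (Real.sqrt_nonneg _) (Real.sqrt_nonneg _) (fun j => ⟨Real.sqrt_nonneg _,
        (le_div_iff₀' (hr0 j)).2 (z2 j)⟩) z3 n i)
    simp only at z
    linarith
  have fp : 0 < φ p := f0.trans_le (hφ.bd p).1
  have key : ∀ α ∈ words n, ∀ i, (2 * 1 * (rr ν i ^ 2 * (φ p * dxl α (cmp w i) p *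
      (prin 0 ((K + w) p) (fun j q => φ q * dxl α (cmp w j) q) i p -
        dmp i * (0 / 2) * (φ p * dxl α (cmp w i) p)))) + deriv (fun _ : ℝ => (1 : ℝ)) p.2.1 *
        (rr ν i ^ 2 * c1 i * (φ p * dxl α (cmp w i) p * (φ p * dxl α (cmp w i) p))) +
        1 * (rr ν i ^ 2 * ((fl i).map fun t => (t.1 : ℝ) * (dx t.2.2.1 (cmp (K + w) t.2.1) p *
          (φ p * dxl α (cmp w i) p * (φ p * dxl α (cmp w t.2.2.2) p)))).sum)) +
        dx 0 (fun p => rr ν i ^ 2 * (L * c1 i) *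
          (φ p * dxl α (cmp w i) p * (φ p * dxl α (cmp w i) p))) p ≤
      φ p ^ 2 * ((2 * (ν * cl i + 2 ^ n * (4 * θ p.1 / ν) * cq i) + 2 * θ p.1 / ν * cf i) * F +
        2 * (2 ^ n * cq i * γ p * 2) * FL +
        (ν + (cf i - 4 * C) * γ p * cL i) * rr ν i ^ 2 * dxl α (cmp w i) p ^ 2) +
        1 / ν * dxl α (cmp f i) p ^ 2 := by
    intro α hα i
    have a := div_bd h0 h1 hθ hγ i (z := fun j => dxl α (cmp w j) p)
      (d := fun j i => dx j (cmp (K + w) i) p) (hz α hα) hd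
    have e1 : ((fl i).map fun t => (t.1 : ℝ) * (dx t.2.2.1 (cmp (K + w) t.2.1) p *
        (φ p * dxl α (cmp w i) p * (φ p * dxl α (cmp w t.2.2.2) p)))).sum = φ p ^ 2 *
        ((fl i).map fun t => (t.1 : ℝ) * (dx t.2.2.1 (cmp (K + w) t.2.1) p *
          (dxl α (cmp w i) p * dxl α (cmp w t.2.2.2) p))).sum := by
      rw [← List.sum_map_mul_left]
      exact congrArg _ (List.map_congr_left fun t _ => by ring)
    have e2 := prin_mul hφ (s0 α) ((K + w) p) i p
    have b := hb α hα i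
    have b1 := hz α hα i
    have b2 : rr ν i * |dxl α (cmp w i) p| * (cL i * √FL) ≤ FL := by
      rcases (tabb i (all_mem i)).1 with h | h
      · simpa [h] using FL0
      · rw [h, Int.cast_one, one_mul]
        exact (mul_le_mul_of_nonneg_right ((mul_le_mul_of_nonneg_left (z1 α hα i) (hr0 i).le).trans
          (z3 i h)) (Real.sqrt_nonneg _)).trans (Real.mul_self_sqrt FL0).le
    have g := (hφ.der p).2.2
    rw [Real.sq_sqrt hF0] at a
    rw [e1, dx, fv_cmul _ ((s1 α i).mul (s1 α i)), fv_mul (s1 α i) (s1 α i), deriv_const]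
    simp only [dx] at a b e2 ⊢
    generalize ((fl i).map fun t => (t.1 : ℝ) * (fderiv ℝ (cmp (K + w) t.2.1) p (0, e t.2.2.1) *
      (dxl α (cmp w i) p * dxl α (cmp w t.2.2.2) p))).sum = Y at a ⊢
    generalize prin 0 ((K + w) p) (fun j => dxl α (cmp w j)) i p +
      L * c1 i * fderiv ℝ (dxl α (cmp w i)) p (0, e 0) = π at b e2
    generalize dxl α (cmp w i) p = y at *
    generalize dxl α (cmp f i) p = D at *
    have x0 : 0 ≤ 2 ^ n * cq i * γ p * 2 := by
      have := cq_nn i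
      positivity
    have x1 : 0 ≤ ν * cl i + 2 ^ n * (4 * θ p.1 / ν) * cq i := by
      have := cq_nn i
      have := cl_nn i
      positivity
    have c1' : rr ν i ^ 2 * (y * (π + D)) ≤ (ν * cl i + 2 ^ n * (4 * θ p.1 / ν) * cq i) * F +
        2 ^ n * cq i * γ p * 2 * FL := by
      have u0 := mul_nonneg (hr0 i).le (abs_nonneg y)
      have u1 := mul_le_mul_of_nonneg_left b u0
      have u2 := mul_le_mul_of_nonneg_left (mul_le_mul_of_nonneg_right b1 (Real.sqrt_nonneg F)) x1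
      have u3 := mul_le_mul_of_nonneg_left b2 x0
      have u4 := mul_le_mul_of_nonneg_left (le_abs_self (y * (π + D))) (sq_nonneg (rr ν i))
      rw [Real.mul_self_sqrt hF0] at u2
      rw [abs_mul] at u4
      linarith
    have c2 : -2 * (rr ν i ^ 2 * (y * D)) ≤ ν * rr ν i ^ 2 * y ^ 2 + 1 / ν * D ^ 2 := by
      have q : 0 ≤ rr ν i ^ 2 * (ν * (y + 1 / ν * D) ^ 2) := by positivity
      have q' : ν * (y + 1 / ν * D) ^ 2 = ν * y ^ 2 + 1 / ν * D ^ 2 + 2 * (y * D) := by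
        field_simp
        ring
      have r1 := mul_le_of_le_one_left (show 0 ≤ 1 / ν * D ^ 2 by positivity)
        (pow_le_one₀ (n := 2) (hr0 i).le (hr i).2)
      rw [q'] at q
      linarith
    have c3 := mul_le_mul_of_nonneg_left g (show 0 ≤ 4 * cL i * rr ν i ^ 2 * y ^ 2 * φ p from
      mul_nonneg (mul_nonneg (mul_nonneg (by linarith [(cL_nn i).1]) (sq_nonneg _)) (sq_nonneg _))
        fp.le)
    have c4 := mul_le_mul_of_nonneg_left (add_le_add (add_le_add (add_le_add c1' c1') c2) a)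
      (sq_nonneg (φ p))
    have c5 := mul_le_of_le_one_left (show 0 ≤ 1 / ν * D ^ 2 by positivity) (f1 p).2
    have c6 := congrArg (fun r => 2 * rr ν i ^ 2 * (φ p * y) * r) e2
    linarith
  refine (lsum_le _ fun α hα => (le_of_eq Finset.sum_add_distrib.symm).trans
    (Finset.sum_le_sum fun i _ => key α hα i)).trans ?_
  rw [← hf, lsum_sum]
  simp only [List.sum_map_add, List.sum_map_mul_left, List.map_const', List.sum_replicate,
    nsmul_eq_mul, ← hN]
  rw [Finset.sum_add_distrib, ← Finset.mul_sum, ← Finset.mul_sum, mul_left_comm]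
  refine add_le_add (mul_le_mul_of_nonneg_left ?_ (sq_nonneg _)) le_rfl
  have t0 : 0 ≤ θ p.1 / ν := by positivity
  have a : F ≤ ∑ i, rr ν i ^ 2 * c0 i * S i := Finset.sum_le_sum fun i _ =>
    mul_le_mul_of_nonneg_right (le_mul_of_one_le_right (sq_nonneg _) (hc0 i).1) (S0 i)
  have b : ∀ i, (ν + (cf i - 4 * C) * γ p * cL i) * rr ν i ^ 2 * S i ≤ ν * (rr ν i ^ 2 * S i) +
      (∑ i, cf i - 4 * C) * γ p * (cL i * (rr ν i ^ 2 * S i)) := fun i => by
    have u2 := Finset.single_le_sum (f := cf) (fun i _ => cf_nn i) (Finset.mem_univ i)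
    have u5 := mul_le_mul_of_nonneg_right u2 (mul_nonneg hγ (FL1 i))
    linarith
  have u4 : N * (4 * 2 ^ n * ∑ i, cq i) + ∑ i, cf i ≤ 4 * C := by
    have v1 : 0 ≤ N * ∑ i, cl i := by positivity
    have v2 : 0 ≤ N * ∑ i, cf i := by positivity
    have v3 : 0 ≤ 2 ^ n * ∑ i, cq i := by positivity
    have v4 : 0 ≤ N * 2 ^ n * ∑ i, cq i := by positivity
    rw [hC]
    linarith
  have u5 := mul_le_mul_of_nonneg_right u4 (mul_nonneg hγ FL0)
  have c : N * (2 * (ν * ∑ i, cl i + 2 ^ n * (4 * θ p.1 / ν) * ∑ i, cq i) +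
      2 * θ p.1 / ν * ∑ i, cf i) + ν ≤ C * (ν + θ p.1 / ν) := by
    have u1 := mul_nonneg hl t0
    have u2 := mul_nonneg (mul_nonneg (show (0 : ℝ) ≤ 2 ^ n by positivity) hq) h0.le
    have u3 := mul_nonneg hc h0.le
    have u4 := mul_nonneg hl h0.le
    have u5 := mul_nonneg (mul_nonneg (show (0 : ℝ) ≤ 2 ^ n by positivity) hq) t0
    have u6 := mul_nonneg hc t0
    have u7 := mul_nonneg hN0 (add_nonneg (add_nonneg u1 u2) u3)
    have u8 := mul_nonneg hN0 u2
    have e1 : 4 * θ p.1 / ν = 4 * (θ p.1 / ν) := by ring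
    have e2 : 2 * θ p.1 / ν = 2 * (θ p.1 / ν) := by ring
    rw [e1, e2, hC]
    linarith
  refine (Finset.sum_le_sum (g := fun i => N * ((2 * (ν * cl i + 2 ^ n * (4 * θ p.1 / ν) * cq i) +
    2 * θ p.1 / ν * cf i) * F) + (N * (4 * 2 ^ n) * (γ p * FL)) * cq i + (ν * (rr ν i ^ 2 * S i) +
      (∑ i, cf i - 4 * C) * γ p * (cL i * (rr ν i ^ 2 * S i))))
    fun i _ => by linarith [b i]).trans ?_
  simp only [Finset.sum_add_distrib, ← Finset.mul_sum, ← Finset.sum_mul]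
  have d := mul_le_mul_of_nonneg_right c hF0
  have e := mul_le_mul_of_nonneg_left a (show 0 ≤ C * (ν + θ p.1 / ν) by positivity)
  simp only [← hF, ← hFL] at *
  linarith

end Vale.Agent.P354XB
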