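import Vale.Agent.P354XB.Wkb

/-!
The estimate of the remainder.
-/

open scoped ContDiff
open MeasureTheory Set Filter Topology

noncomputable section

namespace Vale.Agent.P354XB

open Vale.Agent.P354H Vale.Agent.P354C Vale.Agent.P354C.Ix Vale.Agent.P354A
open Vale.Agent.P354X (en_le)

theorem gh_ex {C β l : ℝ} (R : ℝ) (hC : 0 ≤ C) (hβ : 0 ≤ β) (hl : l ≠ 0) :
    ∃ φ, Gh (l - 1) C (Real.exp (-(8 * C * β))) φ
      fun p => β * (2 / (1 + (p.1 + l⁻¹ * p.2.1 - R) ^ 2)) := by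
  have k0 : 0 ≤ C * β := mul_nonneg hC hβ
  have d : ∀ p v : ℝ × X3, fderiv ℝ (fun p : ℝ × X3 => Real.exp (-(2 * C * β) *
      (Real.arctan (p.1 + l⁻¹ * p.2.1 - R) + 2))) p v =
      Real.exp (-(2 * C * β) * (Real.arctan (p.1 + l⁻¹ * p.2.1 - R) + 2)) * (-(2 * C * β) *
        (1 / (1 + (p.1 + l⁻¹ * p.2.1 - R) ^ 2) * (v.1 + l⁻¹ * v.2.1))) := fun p v => by
    have h : HasFDerivAt (fun p : ℝ × X3 => p.1 + l⁻¹ * p.2.1 - R) _ p := (hasFDerivAt_fst.add
      ((hasFDerivAt_snd.fst (𝕜 := ℝ) (f₂ := fun q : ℝ × X3 => q.2)).const_mul l⁻¹)).sub_const R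
    rw [((h.arctan.add_const 2).const_mul (-(2 * C * β))).exp.fderiv]
    simp
    ring
  refine ⟨fun p => Real.exp (-(2 * C * β) * (Real.arctan (p.1 + l⁻¹ * p.2.1 - R) + 2)),
    Real.contDiff_exp.comp (contDiff_const.mul ((Real.contDiff_arctan.comp (by fun_prop)).add
      contDiff_const)), Real.exp_pos _, fun p => ?_, fun p => ⟨?_, fun j hj => ?_, le_of_eq ?_⟩⟩
  · have a := Real.arctan_lt_pi_div_two (p.1 + l⁻¹ * p.2.1 - R)
    have b := Real.neg_pi_div_two_lt_arctan (p.1 + l⁻¹ * p.2.1 - R)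
    have c := Real.pi_le_four
    exact ⟨Real.exp_le_exp.2 (by nlinarith), Real.exp_le_one_iff.2 (by nlinarith), by positivity⟩
  · simp only [dx, dt, d, e, Matrix.cons_val_zero, Prod.fst_zero]
    field_simp
    ring
  · simp only [dx, d]
    fin_cases j <;> simp_all [e]
  · simp only [dt, d, Prod.fst_zero]
    ring

theorem pw (C : ℝ) : ∃ k : ℕ, ∀ G ≥ (2 : ℝ), C ≤ G ^ k ∧ Real.exp (C * Real.log G) ≤ G ^ k := by
  refine ⟨⌈C⌉₊, fun G hG => ⟨(Nat.le_ceil C).trans (le_trans ?_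
    (pow_le_pow_left₀ zero_le_two hG _)), ?_⟩⟩
  · exact_mod_cast Nat.lt_two_pow_self.le
  · rw [← Real.exp_log (show 0 < G ^ ⌈C⌉₊ by positivity), Real.log_pow]
    exact Real.exp_le_exp.2 (mul_le_mul_of_nonneg_right (Nat.le_ceil C)
      (Real.log_nonneg (by linarith)))

theorem pb_zero {f : ℝ × X3 → ℝ} {p : ℝ × X3} (h : f =ᶠ[𝓝 p] 0) (n : ℕ) : Pb n f p 0 :=
  fun α _ => by
    rw [(P354AE.dxl_congr α (g := fun _ => 0) h).self_of_nhds, dxl_zero]
    simp

theorem en_supp2 {z : ℝ × X3 → Ix → ℝ} (hz : Gd z) {n : ℕ} {t V c : ℝ} {S : Set X3}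
    (hS : MeasurableSet S) (hV : volume S ≤ ENNReal.ofReal V) (V0 : 0 ≤ V)
    (h0 : ∀ x ∉ S, ∀ i, Pb n (cmp z i) (t, x) 0) (h : ∀ x i, Pb n (cmp z i) (t, x) c) :
    ∫ x, en n z (t, x) ≤ Fintype.card Ix * ((words n).length * c ^ 2) * V := by
  have fin : volume S < ⊤ := hV.trans_lt ENNReal.ofReal_lt_top
  have a := integral_mono (hz.int n t) ((integrable_indicator_iff hS).2
    (integrableOn_const (C := (Fintype.card Ix * ((words n).length * c ^ 2) : ℝ)) fin.ne))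
    fun x => by
      by_cases hx : x ∈ S
      · rw [indicator_of_mem hx]
        exact en_le fun i α hα => sq_le_sq' (abs_le.1 (h x i α hα)).1 (abs_le.1 (h x i α hα)).2
      · rw [indicator_of_notMem hx]
        exact (en_le (c := 0) fun i α hα => by simpa using h0 x hx i α hα).trans (by simp)
  rw [integral_indicator_const _ hS, smul_eq_mul, mul_comm] at a
  exact a.trans (mul_le_mul_of_nonneg_left (ENNReal.toReal_le_of_le_ofReal V0 hV) (by positivity))

/-- A box in the scaled coordinates. -/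
def bx (l r G : ℝ) : Set X3 := Icc (l * (r - G)) (l * (r + G)) ×ˢ Icc (-G) G ×ˢ Icc (-G) G

theorem bx_meas (l r G : ℝ) : MeasurableSet (bx l r G) :=
  measurableSet_Icc.prod (measurableSet_Icc.prod measurableSet_Icc)

theorem bx_vol {l G : ℝ} (r : ℝ) (hl : 0 ≤ l) (hG : 0 ≤ G) :
    volume (bx l r G) = ENNReal.ofReal (8 * l * G ^ 3) := by
  rw [bx, Measure.volume_eq_prod, Measure.prod_prod, Measure.volume_eq_prod, Measure.prod_prod,
    Real.volume_Icc, Real.volume_Icc, ← ENNReal.ofReal_mul (by linarith),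
    ← ENNReal.ofReal_mul (by nlinarith)]
  exact congrArg _ (by ring)

theorem bx_out {l r G : ℝ} (hl : 0 < l) {x : X3} (h : x ∉ bx l r G) :
    G < |l⁻¹ * x.1 - r| ∨ G < ‖x.2‖ := by
  by_contra c
  rw [not_or, not_lt, not_lt, abs_le, Prod.norm_def, max_le_iff, Real.norm_eq_abs,
    Real.norm_eq_abs, abs_le, abs_le] at c
  have e : x.1 = l * (l⁻¹ * x.1) := (mul_inv_cancel_left₀ hl.ne' _).symm
  refine h ⟨⟨?_, ?_⟩, c.2⟩ <;> rw [e] <;> refine mul_le_mul_of_nonneg_left ?_ hl.le <;>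
    linarith [c.1.1, c.1.2]

theorem ev_sx {E : Type} [Zero E] {V : ℝ × X3 → E} {l : ℝ} {p : ℝ × X3}
    (h : V =ᶠ[𝓝 (sx l p)] 0) : (fun q => V (sx l q)) =ᶠ[𝓝 p] 0 :=
  (sx l).continuous.continuousAt.eventually h

theorem op_out {f g : ℝ × X3 → ℝ} (hf : Continuous f) (hg : Continuous g) (G : ℝ) :
    IsOpen {p | G < f p ∨ G < g p} :=
  (isOpen_lt continuous_const hf).union (isOpen_lt continuous_const hg)

theorem ev_out {a : ℝ × X3 → Ix → ℝ} {G R : ℝ} {p : ℝ × X3}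
    (h : ∀ p : ℝ × X3, G < |p.1 + p.2.1 - R| ∨ G < ‖p.2.2‖ → a p = 0)
    (hp : G < |p.1 + p.2.1 - R| ∨ G < ‖p.2.2‖) : a =ᶠ[𝓝 p] 0 := by
  have o : IsOpen {p : ℝ × X3 | G < |p.1 + p.2.1 - R| ∨ G < ‖p.2.2‖} :=
    op_out (by fun_prop) (by fun_prop) G
  filter_upwards [o.mem_nhds hp] with q hq using h q hq

theorem Gd.sx {V : ℝ × X3 → Ix → ℝ} (h : Gd V) {l : ℝ} (hl : l ≠ 0) : Gd fun q => V (sx l q) :=
  fun i => ⟨sm_sx (h i).1, (h i).2.comp_homeomorph
    ((Homeomorph.refl ℝ).prodCongr ((Homeomorph.mulLeft₀ l⁻¹ (inv_ne_zero hl)).prodCongr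
      (Homeomorph.refl (ℝ × ℝ))))⟩

theorem Gd.sub {V W : ℝ × X3 → Ix → ℝ} (h : Gd V) (h' : Gd W) : Gd (V - W) := fun i =>
  ⟨(h i).1.sub (h' i).1, (h i).2.sub (h' i).2⟩

theorem Pa.mono {l l' c d : ℝ} {n m : ℕ} {f : ℝ × X3 → ℝ} {p : ℝ × X3} (h : Pa l n f p c)
    (h0 : 0 ≤ l) (hl : l ≤ l') (hm : m ≤ n) (hd : c ≤ d) : Pa l' m f p d := fun α hα =>
  have c0 : 0 ≤ c := (abs_nonneg _).trans (by simpa [P354K.n0] using h [] (Nat.zero_le _))
  (h α (hα.trans hm)).trans (mul_le_mul hd (pow_le_pow_left₀ h0 hl _) (by positivity)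
    (c0.trans hd))

theorem Bg0.low {n m : ℕ} {T T' G : ℝ} {c : ℝ → ℝ} {K a : ℝ × X3 → Ix → ℝ} (h : Bg0 n T G c K a)
    (hm : m ≤ n) (hT : T' ≤ T) : Bg0 m T' G c K a :=
  have s : ∀ {t}, t ∈ Icc 0 T' → t ∈ Icc 0 T := fun ht => ⟨ht.1, ht.2.trans hT⟩
  ⟨h.sK, h.sa, h.pol, fun p hp i => ⟨fun hi α hα => (h.rate p (s hp) i).1 hi α (hα.trans hm),
    fun hi α hα => (h.rate p (s hp) i).2 hi α (hα.trans hm)⟩, h.shift,
    fun p hp i => have k := h.crude p (s hp) i
      ⟨k.1.mono hm le_rfl, k.2.1.mono hm le_rfl, k.2.2.1.mono hm le_rfl, k.2.2.2.mono hm le_rfl⟩,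
    fun p hp => h.trans p (s hp), h.supp⟩

theorem Gro.low {T T' G ν : ℝ} {c : ℝ → ℝ} (h : Gro T G ν c) (hT : T' ∈ Icc 0 T) :
    Gro T' G ν c := by
  refine ⟨h.cont, h.nn, ⟨hT.1, hT.2.trans h.hT.2⟩, h.hG, h.hν, le_trans ?_ h.int⟩
  have := h.cont
  exact intervalIntegral.integral_mono_interval le_rfl hT.1 hT.2 (Eventually.of_forall fun s =>
    add_nonneg h.hν.1.le (div_nonneg (h.nn s) h.hν.1.le)) (Continuous.intervalIntegrable
      (by fun_prop) _ _)

/-- The estimate of the remainder in the scaled coordinates. -/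
theorem est0 (m : ℕ) (hm : 3 ≤ m) : ∃ k : ℕ, ∀ (T G ν A l : ℝ) (c : ℝ → ℝ)
    (K a w : ℝ × X3 → Ix → ℝ) (z : X3 → Ix → ℝ), Gro T G ν c → Bg0 (2 * m + 2) T G c K a →
    G ≤ l → 0 < A →
    A * l * G ^ (k + 5) ≤ 1 → (∀ i, Good (cmp z i)) →
    (∃ R, ∀ x : X3, G < |x.1 - R| ∨ G < ‖x.2‖ → z x = 0) →
    (∀ i x, Sa l (2 * m) (cmp z i) x (A * G / l)) → Gd w →
    (∀ x, w (0, x) = wv A l a (0, x) + z x) → (∀ p : ℝ × X3, p.1 ∈ Icc 0 T → Eqn K w p) →
    ∀ t ∈ Icc 0 T, ∫ x, en (2 * m) (fun q => (w - wa A l K a) (sx l q)) (t, x) ≤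
      (A * G ^ k) ^ 2 / l := by
  obtain ⟨C, C1, hC⟩ := apr m hm
  obtain ⟨D, D1, hD⟩ := wkb (2 * m)
  set cN : ℝ := Fintype.card Ix * (words (2 * m)).length with hcN
  have cN0 : 0 ≤ cN := by positivity
  obtain ⟨k1, h1⟩ := pw (18 * C + D + 72 * cN * D ^ 2)
  refine ⟨2 * k1 + 8, fun T G ν A l c K a w z hG h hl' hA hs gz ⟨R0, z0⟩ hz gw w0 hw => ?_⟩
  have G2 := hG.hG
  have hl : 1 ≤ l := by linarith
  obtain ⟨n0', n1, n2⟩ := hG.hν
  have l0 : 0 < l := by linarith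
  have G1 : 1 ≤ G := by linarith
  have lg := Real.log_nonneg G1
  obtain ⟨p1, p2⟩ := h1 G G2
  have x0 : 0 ≤ cN * D ^ 2 := by positivity
  have P1 : 1 ≤ G ^ k1 := one_le_pow₀ G1
  have sA : A * G ^ (2 * k1 + 8 + 5) ≤ 1 := le_trans (mul_le_mul_of_nonneg_right
    (le_mul_of_one_le_right hA.le hl) (by positivity)) hs
  have hAl : A * l ≤ 1 := (le_mul_of_one_le_right (by positivity) (one_le_pow₀ G1)).trans hs
  have ν2 : 1 ≤ ν ^ 2 * G ^ 2 := by rw [← mul_pow]; exact one_le_pow₀ n2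
  have sm1 : ∀ (y : ℝ) (j : ℕ), y ≤ G ^ j → j + 3 ≤ 2 * k1 + 8 + 5 → A * y < ν ^ 2 := by
    intro y j hy hj
    have a : A * G ^ (j + 3) ≤ 1 := le_trans (mul_le_mul_of_nonneg_left
      (pow_le_pow_right₀ G1 hj) hA.le) sA
    have b : 0 < A * G ^ j * G ^ 2 := by positivity
    refine (mul_le_mul_of_nonneg_left hy hA.le).trans_lt
      (lt_of_mul_lt_mul_right (a := G ^ 2) ?_ (by positivity))
    rw [pow_add] at a
    nlinarith
  have sK : SmV K := fun i => (h.sK i).1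
  have sa : SmV a := fun i => (h.sa i).1
  have sw := wa_sm (A := A) (l := l) sK sa
  have gwa : Gd (wa A l K a) := Gd.loc h.sa sw fun p hp => (wa_loc hp).1
  have gdf : Gd (df A l K a) := Gd.loc h.sa (df_sm sK sa) fun p hp => df_loc hp
  have gz' := gw.sub gwa
  have sKw : SmV (K + wa A l K a) := fun i => (sK i).add (sw i)
  have hb := hD T G A l c K a h G1 hl hA hAl
  obtain ⟨R1, a0⟩ := h.supp
  obtain ⟨R2, b0⟩ := h.shift
  obtain ⟨φ, hφ⟩ := gh_ex (C := C) R2 (by linarith) lg l0.ne'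
  have cc := hG.cont
  have V0 : 0 ≤ 8 * l * G ^ 3 := by positivity
  have out : ∀ (t : ℝ) (x : X3), x ∉ bx l (R1 - t) G → a =ᶠ[𝓝 (sx l (t, x))] 0 := fun t x hx =>
    ev_out a0 (by simpa only [sx_ap, sub_sub_eq_add_sub, add_comm] using bx_out l0 hx)
  refine hC (l - 1) T ν (Fintype.card Ix * ((words (2 * m)).length * (D * (A / l) * G ^ 4) ^ 2) *
    (8 * l * G ^ 3)) (Fintype.card Ix * ((words (2 * m)).length *
      (A * G / l + 1 * (D * (A / l) * G ^ 2)) ^ 2) * (8 * l * G ^ 3 + 8 * l * G ^ 3)) _ _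
    (fun s => c s + ν ^ 2) φ _ (fun q => (K + wa A l K a) (sx l q)) (fun q => df A l K a (sx l q))
    _ n0' n1 (by fun_prop) (fun s => le_add_of_nonneg_left (hG.nn s)) hφ
    (fun i => sm_sx (f := cmp (K + wa A l K a) i) (sKw i)) (gdf.sx l0.ne') (gz'.sx l0.ne')
    (fun p hp => ⟨fun i => ?_, fun i => ?_⟩) (fun s hs => ?_) ?_ ?_ ?_
  · rw [GG_sx l0.ne' sKw fun i => (gz' i).1]
    have e1 := res_diff 0 sKw (fun i => (gz' i).1) i (sx l p)
    have e2 := res_diff 0 sK sw i (sx l p)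
    rw [add_add_sub_cancel, hw (sx l p) hp i] at e1
    simp only [df]
    linarith
  · have k0 : Pa l (2 * m + 1) (cmp K i) (sx l p) (c p.1 + Real.log G *
        (2 / (1 + (p.1 + l⁻¹ * p.2.1 - R2) ^ 2)) * ib i) := by
      have c0 := hG.nn p.1
      by_cases hi : Ex i
      · rw [show ib i = 1 by rcases hi with rfl | rfl | rfl | rfl <;> rfl, mul_one]
        by_cases hv : 1 < |p.1 + l⁻¹ * p.2.1 - R2|
        · refine pa_of_pb hl ((pb_zero ?_ _).mono le_rfl (by positivity))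
          filter_upwards [(isOpen_lt continuous_const (show Continuous fun q : ℝ × X3 =>
            |q.1 + q.2.1 - R2| by fun_prop)).mem_nhds (x := sx l p) hv] with q hq
          exact b0 q hq i hi
        · refine ((h.rate (sx l p) hp i).2 hi).mono (by linarith) hl' (by omega)
            (le_add_of_nonneg_of_le c0 (le_mul_of_one_le_right lg ?_))
          rw [le_div_iff₀ (by positivity)]
          linarith [(sq_le_one_iff_abs_le_one _).2 (not_lt.1 hv)]
      · have := (ib_nn i).1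
        exact ((h.rate (sx l p) hp i).1 hi).mono (by linarith) hl' (Nat.le_succ _)
          (le_add_of_nonneg_right (by positivity))
    refine (pb_add ((pa_iff l0 (sK i)).1 k0) (hb p hp i).1 (sm_sx (sK i))
      (sm_sx (f := cmp (wa A l K a) i) (sw i))).mono le_rfl ?_
    have := sm1 (D * G ^ 2) (k1 + 2) (by rw [pow_add]; gcongr; linarith) (by omega)
    linarith
  · exact en_supp2 (gdf.sx l0.ne') (bx_meas l (R1 - s) G) (bx_vol _ l0.le (by linarith)).le V0
      (fun x hx i => pb_zero ((ev_sx (df_loc (out s x hx))).mono fun q hq => congrFun hq i) _)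
      fun x i => (hb (s, x) hs i).2.2
  · have s1 : ∀ i, Sm fun q : ℝ × X3 => z q.2 i := fun i => (gz i).1.comp contDiff_snd
    have s2 : ∀ i, Sm fun q => A / l * cv l (sx l q) * bb K a (sx l q) i := fun i =>
      sm_sx (f := fun q => A / l * cv l q * bb K a q i)
        ((Sm.cmul (cv_sm l) _).mul (bb_sm sK sa i))
    have key : ∀ x i y, Pb (2 * m) (fun q => z (sx l q).2 i +
        -1 * (A / l * cv l (sx l q) * bb K a (sx l q) i)) (0, x) y →
        Pb (2 * m) (cmp (fun q => (w - wa A l K a) (sx l q)) i) (0, x) y := fun x i y =>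
      pb_slice (gz'.sx l0.ne' i).1 ((sm_sx (s1 i)).add (Sm.cmul (s2 i) _)) fun x => by
        simp only [P354A.cmp, sx_ap, Pi.sub_apply, w0, Pi.add_apply, wv, wa, lc, sv]
        ring
    refine en_supp2 (gz'.sx l0.ne') ((bx_meas l R0 G).union (bx_meas l (R1 - 0) G))
      ((measure_union_le _ _).trans ?_) (by positivity) (fun x hx i => key x i _ (pb_zero ?_ _))
      fun x i => key x i _ (pb_add ((pa_iff l0 (s1 i)).1 fun α hα => ?_)
        (pb_cmul ((hb (0, x) ⟨le_rfl, hG.hT.1⟩ i).2.1.mono (Nat.le_succ _) le_rfl) (s2 i)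
          (by simp)) (sm_sx (s1 i)) (Sm.cmul (s2 i) _))
    · rw [bx_vol _ l0.le (by linarith), bx_vol _ l0.le (by linarith), ENNReal.ofReal_add V0 V0]
    · rw [mem_union, not_or] at hx
      have o : IsOpen {p : ℝ × X3 | G < |l⁻¹ * p.2.1 - R0| ∨ G < ‖p.2.2‖} :=
        op_out (by fun_prop) (by fun_prop) G
      filter_upwards [o.mem_nhds (x := (0, x)) (bx_out l0 hx.1),
        ev_sx (wa_loc (A := A) (l := l) (K := K) (out 0 x hx.2)).2] with q q1 q2
      simp [z0 (sx l q).2 q1, show bb K a (sx l q) = 0 from q2]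
    · rw [dxl_eq_pdl α (s1 i)]
      exact hz i _ α hα
  · have i1 : ∫ s in (0 : ℝ)..T, (ν + (c s + ν ^ 2) / ν) ≤ 2 * Real.log G := by
      have := intervalIntegral.integral_mono_on (μ := volume) hG.hT.1
        (f := fun s => ν + (c s + ν ^ 2) / ν) (g := fun s => 2 * (ν + c s / ν))
        (Continuous.intervalIntegrable (by fun_prop) _ _)
        (Continuous.intervalIntegrable (by fun_prop) _ _) fun s _ => by
          have := div_nonneg (hG.nn s) n0'.le
          rw [add_div, sq, mul_div_cancel_right₀ _ n0'.ne']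
          linarith
      rw [intervalIntegral.integral_const_mul] at this
      linarith [hG.int]
    have ν1 : ν⁻¹ ≤ G := by rwa [inv_le_iff_one_le_mul₀' n0']
    have i2 : C / (ν * Real.exp (-(8 * C * Real.log G))) ^ 2 *
        Real.exp (C * ∫ s in (0 : ℝ)..T, (ν + (c s + ν ^ 2) / ν)) ≤ G ^ k1 * G ^ 2 * G ^ k1 := by
      rw [mul_pow, ← div_div, ← Real.exp_nat_mul, div_mul_eq_mul_div, mul_div_assoc,
        ← Real.exp_sub, div_eq_mul_inv, ← inv_pow]
      refine mul_le_mul (mul_le_mul (by linarith) (pow_le_pow_left₀ (by positivity) ν1 2)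
        (by positivity) (by positivity)) (le_trans (Real.exp_le_exp.2 ?_) p2) (by positivity)
        (by positivity)
      have u1 := mul_le_mul_of_nonneg_left i1 (show 0 ≤ C by linarith)
      have u2 := mul_nonneg (show 0 ≤ D + 72 * cN * D ^ 2 by linarith) lg
      push_cast
      linarith
    have y0 : 0 ≤ cN * D ^ 2 * (A ^ 2 / l) := by positivity
    have i3 : Fintype.card Ix * ((words (2 * m)).length *
        (A * G / l + 1 * (D * (A / l) * G ^ 2)) ^ 2) * (8 * l * G ^ 3 + 8 * l * G ^ 3) ≤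
        64 * (cN * D ^ 2 * (A ^ 2 / l) * G ^ 13) := by
      have u1 : A * G / l + 1 * (D * (A / l) * G ^ 2) ≤ 2 * (D * (A / l) * G ^ 2) := by
        have : G ≤ D * G ^ 2 := (le_self_pow₀ G1 two_ne_zero).trans
          (le_mul_of_one_le_left (by positivity) D1)
        have := mul_le_mul_of_nonneg_left this (show 0 ≤ A / l by positivity)
        rw [mul_div_right_comm]
        linarith
      have u2 := mul_le_mul_of_nonneg_left (pow_le_pow_left₀ (by positivity) u1 2)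
        (show 0 ≤ cN * (16 * l * G ^ 3) by positivity)
      have u3 := mul_le_mul_of_nonneg_left (pow_le_pow_right₀ G1 (show 7 ≤ 13 by norm_num)) y0
      have u4 : cN * (16 * l * G ^ 3) * (2 * (D * (A / l) * G ^ 2)) ^ 2 =
          64 * (cN * D ^ 2 * (A ^ 2 / l) * G ^ 7) := by field_simp; ring
      rw [← mul_assoc, ← hcN]
      linarith
    have i4 : T * (Fintype.card Ix * ((words (2 * m)).length * (D * (A / l) * G ^ 4) ^ 2) *
        (8 * l * G ^ 3)) / ν ≤ 8 * (cN * D ^ 2 * (A ^ 2 / l) * G ^ 13) := by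
      rw [← mul_assoc (Fintype.card Ix : ℝ), ← hcN, div_eq_mul_inv]
      refine (mul_le_mul (mul_le_mul_of_nonneg_right hG.hT.2 (by positivity)) ν1 (by positivity)
        (by positivity)).trans (le_of_eq ?_)
      field_simp
    refine (mul_le_mul i2 (add_le_add i3 i4) (by have := hG.hT.1; positivity)
      (by positivity)).trans ?_
    have u1 : 72 * cN * D ^ 2 ≤ G ^ k1 * (G ^ k1 * G) := le_trans (by linarith)
      (le_mul_of_one_le_right (by positivity) (one_le_mul_of_one_le_of_one_le P1 G1))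
    have u2 := mul_le_mul_of_nonneg_left u1
      (show 0 ≤ G ^ k1 * G ^ 2 * G ^ k1 * (A ^ 2 / l) * G ^ 13 by positivity)
    refine le_trans (le_of_eq (by ring)) (u2.trans (le_of_eq (by ring)))
  · have u1 : √((A * G ^ (2 * k1 + 8)) ^ 2 / l) ≤ A * G ^ (2 * k1 + 8) :=
      Real.sqrt_le_iff.2 ⟨by positivity, div_le_self (sq_nonneg _) hl⟩
    have u0 := mul_le_mul_of_nonneg_left (show 3 ≤ G ^ 2 by nlinarith)
      (show 0 ≤ G ^ (2 * k1 + 8) by positivity)
    have u2 := sm1 (3 * G ^ (2 * k1 + 8)) (2 * k1 + 8 + 2)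
      (by rw [pow_add G (2 * k1 + 8) 2]; linarith) le_rfl
    linarith

end Vale.Agent.P354XB
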