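import Vale.Agent.P354XB.Boot
import Vale.Agent.P354XB.Defs
import Vale.Agent.P354AE.Exist

/-!
The scaling x ↦ x / l, and the bilinear form of the equation of the perturbation.
-/

open scoped ContDiff
open MeasureTheory Set Filter Topology

noncomputable section

namespace Vale.Agent.P354XB

open Vale.Agent.P354H Vale.Agent.P354C Vale.Agent.P354A
open Vale.Agent.P354X (fl fl_ne all_mem cl cq cl_nn cq_nn lsum_le en_le)
open Vale.Agent.P354K (n0)

/-- The scaling. -/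
def sx (l : ℝ) : ℝ × X3 →L[ℝ] ℝ × X3 := (ContinuousLinearMap.id ℝ ℝ).prodMap
  ((l⁻¹ • ContinuousLinearMap.id ℝ ℝ).prodMap (ContinuousLinearMap.id ℝ (ℝ × ℝ)))

theorem sx_ap (l : ℝ) (p : ℝ × X3) : sx l p = (p.1, l⁻¹ * p.2.1, p.2.2) := rfl

variable {l : ℝ} {f g : ℝ × X3 → ℝ} {p : ℝ × X3} {n : ℕ} {c d : ℝ}

theorem sm_sx (hf : Sm f) : Sm fun p => f (sx l p) := hf.comp (sx l).contDiff

theorem dv_sx (hf : Sm f) (a p : ℝ × X3) :
    dv a (fun p => f (sx l p)) p = dv (sx l a) f (sx l p) := by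
  unfold dv
  rw [show fderiv ℝ (fun p => f (sx l p)) p = _ from
    ((hf.dif _).hasFDerivAt.comp p (sx l).hasFDerivAt).fderiv]
  rfl

theorem dt_sx (hf : Sm f) (p : ℝ × X3) : dt (fun p => f (sx l p)) p = dt f (sx l p) := by
  rw [dt_eq, dv_sx hf, dt_eq, sx_ap]
  simp only [Prod.fst_zero, mul_zero, Prod.snd_zero]
  rfl

theorem dx_sx (hf : Sm f) (j : Fin 3) : dx j (fun p => f (sx l p)) =
    fun p => (if j = 0 then l⁻¹ else 1) * dx j f (sx l p) := by
  funext p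
  have e1 : sx l (0, e j) = (if j = 0 then l⁻¹ else 1) • ((0, e j) : ℝ × X3) := by
    fin_cases j <;> simp [sx_ap, e]
  rw [dx_eq, dv_sx hf, e1, dv, map_smul]
  rfl

theorem n0_cons (j : Fin 3) (α : List (Fin 3)) :
    n0 (j :: α) = n0 α + if j = 0 then 1 else 0 := by
  simp [n0, List.count_cons]

theorem dxl_sx (α : List (Fin 3)) (hf : Sm f) :
    dxl α (fun p => f (sx l p)) = fun p => l⁻¹ ^ n0 α * dxl α f (sx l p) := by
  induction α generalizing f with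
  | nil => simp [dxl, n0]
  | cons j α ih =>
    simp only [dxl]
    rw [dx_sx hf, dxl_cmul α (sm_sx (hf.dx j)), ih (hf.dx j), n0_cons]
    funext p
    split_ifs <;> ring

theorem pa_iff (hl : 0 < l) (hf : Sm f) :
    Pa l n f (sx l p) c ↔ Pb n (fun q => f (sx l q)) p c := by
  refine forall₂_congr fun α _ => ?_
  rw [dxl_sx α hf, abs_mul, abs_of_pos (a := l⁻¹ ^ n0 α) (by positivity), inv_pow,
    inv_mul_le_iff₀ (by positivity), mul_comm]

theorem pa_of_pb (hl : 1 ≤ l) (h : Pb n f p c) : Pa l n f p c := fun α hα =>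
  (h α hα).trans (le_mul_of_one_le_right h.nonneg (one_le_pow₀ hl))

theorem pb_sx (hl : 1 ≤ l) (hf : Sm f) (h : Pb n f (sx l p) c) : Pb n (fun q => f (sx l q)) p c :=
  (pa_iff (by linarith) hf).1 (pa_of_pb hl h)

theorem sx_surj (hl : l ≠ 0) (p : ℝ × X3) : sx l (p.1, l * p.2.1, p.2.2) = p := by
  rw [sx_ap, inv_mul_cancel_left₀ hl]

theorem int_sx (hl : 0 < l) {F : X3 → ℝ} (hF : Continuous F) :
    ∫ x : X3, F (l⁻¹ * x.1, x.2) = l * ∫ x, F x := by
  have e1 : Measure.map (Prod.map (l⁻¹ * ·) id) (volume : Measure (ℝ × ℝ × ℝ)) =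
      ENNReal.ofReal l • volume := by
    rw [Measure.volume_eq_prod, ← Measure.map_prod_map _ _ (by fun_prop) measurable_id,
      Measure.map_id, Real.map_volume_mul_left (inv_ne_zero hl.ne'), inv_inv, abs_of_pos hl,
      Measure.prod_smul_left]
  have := integral_map (μ := volume) (φ := Prod.map (l⁻¹ * ·) (id : ℝ × ℝ → ℝ × ℝ)) (f := F)
    (by fun_prop) hF.aestronglyMeasurable
  rw [e1, integral_smul_measure, ENNReal.toReal_ofReal hl.le] at this
  exact this.symm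

/-! ### Bounds -/

theorem pb_add (h1 : Pb n f p c) (h2 : Pb n g p d) (hf : Sm f) (hg : Sm g) :
    Pb n (fun p => f p + g p) p (c + d) := fun α hα => by
  rw [dxl_add α hf hg]
  exact (abs_add_le _ _).trans (add_le_add (h1 α hα) (h2 α hα))

theorem pb_cmul (h1 : Pb n f p c) (hf : Sm f) {r s : ℝ} (hr : |r| ≤ s) :
    Pb n (fun p => r * f p) p (s * c) := fun α hα => by
  rw [dxl_cmul α hf, abs_mul]
  exact mul_le_mul hr (h1 α hα) (abs_nonneg _) ((abs_nonneg _).trans hr)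

theorem pb_list {β : Type} (L : List β) {F : β → ℝ × X3 → ℝ} (hF : ∀ t, Sm (F t)) {c : β → ℝ}
    (h : ∀ t ∈ L, Pb n (F t) p (c t)) :
    Pb n (fun p => (L.map fun t => F t p).sum) p (L.map c).sum := fun α hα => by
  rw [dxl_list α L hF]
  exact abs_list_le L fun t ht => h t ht α hα

theorem pb_slice (hf : Sm f) (hg : Sm g) (e : ∀ x, f (p.1, x) = g (p.1, x)) (h : Pb n g p c) :
    Pb n f p c := fun α hα => by
  rw [dxl_eq_pdl α hf, show sl f p.1 = sl g p.1 from funext e, ← dxl_eq_pdl α hg]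
  exact h α hα

/-- The oscillating factor in the scaled coordinates. -/
def tg (L θ : ℝ) (p : ℝ × X3) : ℝ := Real.sin (L * p.1 + p.2.1 + θ)

theorem tg_sm (L θ : ℝ) : Sm (tg L θ) := Real.contDiff_sin.comp (by fun_prop)

theorem dx_tg (L θ : ℝ) (j : Fin 3) :
    dx j (tg L θ) = fun p => (if j = 0 then 1 else 0) * tg L (θ + Real.pi / 2) p := by
  funext p
  have h : HasFDerivAt (fun p : ℝ × X3 => L * p.1 + p.2.1 + θ) _ p :=
    ((hasFDerivAt_fst.const_mul L).add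
      (hasFDerivAt_snd.fst (𝕜 := ℝ) (f₂ := fun q : ℝ × X3 => q.2))).add_const θ
  rw [dx, show fderiv ℝ (tg L θ) p = _ from h.sin.fderiv, tg, ← add_assoc, Real.sin_add_pi_div_two]
  fin_cases j <;> simp [e]

theorem pb_tg (L θ : ℝ) (n : ℕ) (p : ℝ × X3) : Pb n (tg L θ) p 1 := fun α hα => by
  clear hα
  induction α generalizing θ with
  | nil => exact Real.abs_sin_le_one _
  | cons j α ih =>
    simp only [dxl]
    rw [dx_tg, dxl_cmul α (tg_sm _ _), abs_mul]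
    refine mul_le_one₀ ?_ (abs_nonneg _) (ih _)
    split_ifs <;> simp

/-- The energy of a bounded function with support in a set of finite volume. -/
theorem en_supp {z : ℝ × X3 → Ix → ℝ} (hz : Gd z) {t V : ℝ} {S : Set X3} (hS : MeasurableSet S)
    (hV : volume S ≤ ENNReal.ofReal V) (V0 : 0 ≤ V) (h0 : ∀ x ∉ S, z =ᶠ[𝓝 (t, x)] 0)
    (h : ∀ x i, Pb n (cmp z i) (t, x) c) :
    ∫ x, en n z (t, x) ≤ Fintype.card Ix * ((words n).length * c ^ 2) * V := by
  have fin : volume S < ⊤ := hV.trans_lt ENNReal.ofReal_lt_top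
  have a := integral_mono (hz.int n t) ((integrable_indicator_iff hS).2
    (integrableOn_const (C := (Fintype.card Ix * ((words n).length * c ^ 2) : ℝ)) fin.ne))
    fun x => by
      by_cases hx : x ∈ S
      · rw [indicator_of_mem hx]
        exact en_le fun i α hα => sq_le_sq' (abs_le.1 (h x i α hα)).1 (abs_le.1 (h x i α hα)).2
      · rw [indicator_of_notMem hx]
        refine (en_le (c := 0) fun i α _ => ?_).trans (by simp)
        have e : cmp z i =ᶠ[𝓝 (t, x)] fun _ => 0 := (h0 x hx).mono fun q hq => congrFun hq i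
        rw [(P354AE.dxl_congr α e).self_of_nhds, dxl_zero]
        simp
  rw [integral_indicator_const _ hS, smul_eq_mul, mul_comm] at a
  exact a.trans (mul_le_mul_of_nonneg_left (ENNReal.toReal_le_of_le_ofReal V0 hV) (by positivity))

/-! ### The bilinear form -/

def Bl (U V : ℝ × X3 → Ix → ℝ) (i : Ix) (p : ℝ × X3) : ℝ :=
  ((fl i).map fun t => (t.1 : ℝ) * (cmp U t.2.1 p * dx t.2.2.1 (cmp V t.2.2.2) p)).sum +
    ((quad i).map fun t => (t.1 : ℝ) * (cmp U t.2.1 p * cmp V t.2.2 p)).sum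
def Ln (V : ℝ × X3 → Ix → ℝ) (i : Ix) (p : ℝ × X3) : ℝ :=
  ((lin i).map fun t => (t.1 : ℝ) * cmp V t.2 p).sum
def DD (V : ℝ × X3 → Ix → ℝ) (i : Ix) (p : ℝ × X3) : ℝ :=
  c0 i * dt (cmp V i) p + c1 i * dx 0 (cmp V i) p
def L0 (K V : ℝ × X3 → Ix → ℝ) (i : Ix) (p : ℝ × X3) : ℝ := Ln V i p + Bl K V i p + Bl V K i p

/-- Smooth fields. -/
abbrev SmV (U : ℝ × X3 → Ix → ℝ) : Prop := ∀ i, Sm (cmp U i)

variable {U V K : ℝ × X3 → Ix → ℝ}

theorem GG_eq (K V : ℝ × X3 → Ix → ℝ) (i : Ix) (p : ℝ × X3) :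
    GG 0 K V i p = DD V i p + L0 K V i p + Bl V V i p := by
  simp only [GG, To, Tl, Tq, ub0, DD, L0, Ln, Bl, fl, mul_add, List.sum_map_add]
  ring

theorem Bl_sm (hU : SmV U) (hV : SmV V) (i : Ix) : Sm (Bl U V i) :=
  (sm_list _ fun t : ℤ × Ix × Fin 3 × Ix => Sm.cmul ((hU t.2.1).mul ((hV t.2.2.2).dx t.2.2.1)) _).add
    (sm_list _ fun t : ℤ × Ix × Ix => Sm.cmul ((hU t.2.1).mul (hV t.2.2)) _)

theorem Ln_sm (hV : SmV V) (i : Ix) : Sm (Ln V i) :=
  sm_list _ fun t : ℤ × Ix => Sm.cmul (hV t.2) _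

theorem DD_sm (hV : SmV V) (i : Ix) : Sm (DD V i) :=
  (Sm.cmul (hV i).dt _).add (Sm.cmul ((hV i).dx 0) _)

theorem L0_sm (hK : SmV K) (hV : SmV V) (i : Ix) : Sm (L0 K V i) :=
  ((Ln_sm hV i).add (Bl_sm hK hV i)).add (Bl_sm hV hK i)

theorem Bl_sx (hV : SmV V) (i : Ix) (p : ℝ × X3) :
    Bl (fun q => U (sx l q)) (fun q => V (sx l q)) i p = Bl U V i (sx l p) := by
  unfold Bl
  refine congrArg₂ _ (congrArg _ (List.map_congr_left fun t ht => ?_)) rfl
  rw [show dx t.2.2.1 (cmp (fun q => V (sx l q)) t.2.2.2) = _ from dx_sx (hV _) _,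
    if_neg (fl_ne i (all_mem i) t ht)]
  simp only [one_mul]
  rfl

theorem GG_sx (hl : l ≠ 0) (hK : SmV K) (hV : SmV V) (i : Ix) (p : ℝ × X3) :
    GG 0 (fun q => K (sx l q)) (fun q => V (sx l q)) i p +
      (l - 1) * c1 i * dx 0 (cmp (fun q => V (sx l q)) i) p = GG 0 K V i (sx l p) := by
  simp only [GG_eq, L0, Bl_sx hK, Bl_sx hV, DD]
  rw [show dx 0 (cmp (fun q => V (sx l q)) i) = _ from dx_sx (hV _) _,
    show dt (cmp (fun q => V (sx l q)) i) p = _ from dt_sx (hV _) _,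
    show Ln (fun q => V (sx l q)) i p = Ln V i (sx l p) from rfl, if_pos rfl]
  field_simp
  ring

/-- A bound for the sums of the coefficients. -/
def cA : ℝ := 1 + ∑ i, (cl i + cq i)

theorem cA_ge (i : Ix) : 1 ≤ cA ∧ cl i ≤ cA ∧ cq i ≤ cA := by
  have a := Finset.single_le_sum (f := fun i => cl i + cq i)
    (fun i _ => add_nonneg (cl_nn i) (cq_nn i)) (Finset.mem_univ i)
  have b := cl_nn i
  have c := cq_nn i
  unfold cA
  exact ⟨by linarith, by linarith, by linarith⟩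

theorem Ln_pb (hV : SmV V) (h : ∀ i, Pb n (cmp V i) p c) (i : Ix) : Pb n (Ln V i) p (cA * c) := by
  refine (pb_list _ (fun t : ℤ × Ix => Sm.cmul (hV t.2) _) fun t _ =>
    pb_cmul (h t.2) (hV _) le_rfl).mono le_rfl ?_
  rw [List.sum_map_mul_right]
  exact mul_le_mul_of_nonneg_right (cA_ge i).2.1 (h i).nonneg

theorem Bl_pb (hU : SmV U) (hV : SmV V) (h1 : ∀ i, Pb n (cmp U i) p c)
    (h2 : ∀ i, Pb (n + 1) (cmp V i) p d) (i : Ix) : Pb n (Bl U V i) p (cA * (2 ^ n * (c * d))) := by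
  have s1 := fun t : ℤ × Ix × Fin 3 × Ix => (hU t.2.1).mul ((hV t.2.2.2).dx t.2.2.1)
  have s2 := fun t : ℤ × Ix × Ix => (hU t.2.1).mul (hV t.2.2)
  refine (pb_add (pb_list (fl i) (fun t => Sm.cmul (s1 t) t.1) fun t _ => pb_cmul
    ((h1 _).mul ((h2 _).dx _) (hU _) ((hV _).dx _)) (s1 t) le_rfl)
    (pb_list (quad i) (fun t => Sm.cmul (s2 t) t.1) fun t _ => pb_cmul
      ((h1 _).mul ((h2 _).mono n.le_succ le_rfl) (hU _) (hV _)) (s2 t) le_rfl)
    (sm_list _ fun t => Sm.cmul (s1 t) _) (sm_list _ fun t => Sm.cmul (s2 t) _)).mono le_rfl ?_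
  rw [List.sum_map_mul_right, List.sum_map_mul_right, ← add_mul]
  refine mul_le_mul_of_nonneg_right (le_trans (le_of_eq ?_) (cA_ge i).2.2)
    (mul_nonneg (by positivity) (mul_nonneg (h1 i).nonneg (h2 i).nonneg))
  simp only [cq, pairs, fl, List.map_append, List.sum_append, List.map_map, Function.comp_def]
  ring

theorem L0_pb (hK : SmV K) (hV : SmV V) (h1 : ∀ i, Pb (n + 1) (cmp K i) p c) (c1 : 1 ≤ c)
    (h2 : ∀ i, Pb (n + 1) (cmp V i) p d) (i : Ix) :
    Pb n (L0 K V i) p (3 * (cA * (2 ^ n * (c * d)))) := by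
  refine (pb_add (pb_add (Ln_pb hV (fun i => (h2 i).mono n.le_succ le_rfl) i)
    (Bl_pb hK hV (fun i => (h1 i).mono n.le_succ le_rfl) h2 i) (Ln_sm hV i) (Bl_sm hK hV i))
    (Bl_pb hV hK (fun i => (h2 i).mono n.le_succ le_rfl) h1 i)
    ((Ln_sm hV i).add (Bl_sm hK hV i)) (Bl_sm hV hK i)).mono le_rfl ?_
  have a : d ≤ 2 ^ n * (c * d) := (le_mul_of_one_le_left (h2 i).nonneg c1).trans
    (le_mul_of_one_le_left (mul_nonneg (h1 i).nonneg (h2 i).nonneg) (one_le_pow₀ one_le_two))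
  have b := mul_le_mul_of_nonneg_left a (zero_le_one.trans (cA_ge i).1)
  rw [mul_comm d c]
  linarith

/-- The time derivative of a field. -/
def dT (U : ℝ × X3 → Ix → ℝ) (p : ℝ × X3) (i : Ix) : ℝ := dt (cmp U i) p

theorem dT_sm (hU : SmV U) : SmV (dT U) := fun i => (hU i).dt

theorem dt_Bl (hU : SmV U) (hV : SmV V) (i : Ix) :
    dt (Bl U V i) = fun p => Bl (dT U) V i p + Bl U (dT V) i p := by
  have s1 := fun t : ℤ × Ix × Fin 3 × Ix => (hU t.2.1).mul ((hV t.2.2.2).dx t.2.2.1)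
  have s2 := fun t : ℤ × Ix × Ix => (hU t.2.1).mul (hV t.2.2)
  unfold Bl
  rw [dt_eq, dv_add (sm_list _ fun t => Sm.cmul (s1 t) _).dif
    (sm_list _ fun t => Sm.cmul (s2 t) _).dif, dv_list _ fun t => Sm.cmul (s1 t) _,
    dv_list _ fun t => Sm.cmul (s2 t) _]
  funext p
  simp only [dv_cmul (Sm.dif (s1 _)), dv_cmul (Sm.dif (s2 _)),
    dv_mul (hU _).dif ((hV _).dx _).dif, dv_mul (hU _).dif (hV _).dif, mul_add, List.sum_map_add]
  simp only [dx_eq, dv_comm (hV _) (1, 0)]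
  exact add_add_add_comm _ _ _ _

theorem dt_L0 (hK : SmV K) (hV : SmV V) (i : Ix) : dt (L0 K V i) =
    fun p => L0 K (dT V) i p + (Bl (dT K) V i p + Bl V (dT K) i p) := by
  unfold L0
  rw [dt_eq, dv_add (Sm.dif ((Ln_sm hV i).add (Bl_sm hK hV i))) (Bl_sm hV hK i).dif,
    dv_add (Ln_sm hV i).dif (Bl_sm hK hV i).dif, ← dt_eq, ← dt_eq, ← dt_eq, dt_Bl hK hV,
    dt_Bl hV hK]
  have e : dt (Ln V i) = Ln (dT V) i := by
    unfold Ln
    rw [dt_eq, dv_list _ fun t : ℤ × Ix => Sm.cmul (hV t.2) _]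
    simp only [dv_cmul (hV _).dif]
    rfl
  rw [e]
  funext p
  ring

end Vale.Agent.P354XB
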