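import Vale.Agent.P354XB.Core2
import Vale.Agent.P354EN.Main
import Vale.Agent.P354YU.Supp

/-!
The transport of the wave along the slab.
-/

namespace Vale.Agent.P354XB

theorem slab : SLAB := P354EN.extn core P354YU.supp

end Vale.Agent.P354XB
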