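import Vale.Agent.P354XB.Sc

/-!
The approximate solution with one corrector.
-/

open scoped ContDiff
open MeasureTheory Set Filter Topology

noncomputable section

namespace Vale.Agent.P354XB

open Vale.Agent.P354H Vale.Agent.P354C Vale.Agent.P354C.Ix Vale.Agent.P354A
open Vale.Agent.P354X (fl fl_ne all_mem)

/-- The corrector, the phase factors, the approximate solution and its defect. -/
def bb (K a : ℝ × X3 → Ix → ℝ) (p : ℝ × X3) (i : Ix) : ℝ := cL i / 2 * L0 K a i p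
def sv (l : ℝ) (p : ℝ × X3) : ℝ := Real.sin (l * (p.1 + p.2.1))
def cv (l : ℝ) (p : ℝ × X3) : ℝ := Real.cos (l * (p.1 + p.2.1))
def lc (φ ψ : ℝ × X3 → ℝ) (a b : ℝ × X3 → Ix → ℝ) (p : ℝ × X3) (i : Ix) : ℝ :=
  φ p * a p i + ψ p * b p i
def wa (A l : ℝ) (K a : ℝ × X3 → Ix → ℝ) : ℝ × X3 → Ix → ℝ :=
  lc (fun p => A * sv l p) (fun p => A / l * cv l p) a (bb K a)
def df (A l : ℝ) (K a : ℝ × X3 → Ix → ℝ) (p : ℝ × X3) (i : Ix) : ℝ := GG 0 K (wa A l K a) i p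

variable {K a b V : ℝ × X3 → Ix → ℝ} {φ ψ : ℝ × X3 → ℝ} {p : ℝ × X3} {A l : ℝ}

theorem sv_sm (l : ℝ) : Sm (sv l) := Real.contDiff_sin.comp (by fun_prop)
theorem cv_sm (l : ℝ) : Sm (cv l) := Real.contDiff_cos.comp (by fun_prop)

theorem ph_der (l : ℝ) (p : ℝ × X3) : ∃ T : ℝ × X3 →L[ℝ] ℝ,
    HasFDerivAt (fun p : ℝ × X3 => l * (p.1 + p.2.1)) T p ∧ ∀ v, T v = l * (v.1 + v.2.1) :=
  ⟨_, (hasFDerivAt_fst.add
    (hasFDerivAt_snd.fst (𝕜 := ℝ) (f₂ := fun q : ℝ × X3 => q.2))).const_mul l, fun v => by simp [mul_add]⟩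

theorem dv_sv (l : ℝ) (v p : ℝ × X3) : dv v (sv l) p = l * (v.1 + v.2.1) * cv l p := by
  obtain ⟨T, h, e⟩ := ph_der l p
  rw [dv, show fderiv ℝ (sv l) p = _ from h.sin.fderiv, smul_apply, e, smul_eq_mul, mul_comm]
  rfl

theorem dv_cv (l : ℝ) (v p : ℝ × X3) : dv v (cv l) p = -(l * (v.1 + v.2.1) * sv l p) := by
  obtain ⟨T, h, e⟩ := ph_der l p
  rw [dv, show fderiv ℝ (cv l) p = _ from h.cos.fderiv, smul_apply, e, smul_eq_mul, neg_mul,
    mul_comm]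
  rfl

theorem lc_sm (hφ : Sm φ) (hψ : Sm ψ) (ha : SmV a) (hb : SmV b) : SmV (lc φ ψ a b) := fun i =>
  (hφ.mul (ha i)).add (hψ.mul (hb i))

theorem dv_lc (hφ : Sm φ) (hψ : Sm ψ) (ha : SmV a) (hb : SmV b) (i : Ix) (v p : ℝ × X3) :
    dv v (cmp (lc φ ψ a b) i) p = dv v φ p * a p i + φ p * dv v (cmp a i) p +
      (dv v ψ p * b p i + ψ p * dv v (cmp b i) p) := by
  rw [show cmp (lc φ ψ a b) i = fun p => φ p * cmp a i p + ψ p * cmp b i p from rfl,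
    dv_add (Sm.dif (hφ.mul (ha i))) (Sm.dif (hψ.mul (hb i))), dv_mul hφ.dif (ha i).dif,
    dv_mul hψ.dif (hb i).dif]
  rfl

theorem L0_lc (hφ : Sm φ) (hψ : Sm ψ) (ha : SmV a) (hb : SmV b)
    (h : ∀ j ≠ 0, dv (0, e j) φ p = 0 ∧ dv (0, e j) ψ p = 0) (i : Ix) :
    L0 K (lc φ ψ a b) i p = φ p * L0 K a i p + ψ p * L0 K b i p := by
  have e1 : ((fl i).map fun t => (t.1 : ℝ) * (cmp K t.2.1 p *
      dx t.2.2.1 (cmp (lc φ ψ a b) t.2.2.2) p)).sum = ((fl i).map fun t =>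
      φ p * ((t.1 : ℝ) * (cmp K t.2.1 p * dx t.2.2.1 (cmp a t.2.2.2) p)) +
      ψ p * ((t.1 : ℝ) * (cmp K t.2.1 p * dx t.2.2.1 (cmp b t.2.2.2) p))).sum :=
    congrArg _ (List.map_congr_left fun t ht => by
      have := h _ (fl_ne i (all_mem i) t ht)
      simp only [dx_eq, dv_lc hφ hψ ha hb, this.1, this.2]
      ring)
  have e2 : ∀ (c d : ℝ) (j : Ix), c * (d * cmp (lc φ ψ a b) j p) =
      φ p * (c * (d * cmp a j p)) + ψ p * (c * (d * cmp b j p)) := fun c d j => by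
    simp only [P354A.cmp, lc]
    ring
  have e3 : ∀ (c d : ℝ) (j : Ix), c * (cmp (lc φ ψ a b) j p * d) =
      φ p * (c * (cmp a j p * d)) + ψ p * (c * (cmp b j p * d)) := fun c d j => by
    simp only [P354A.cmp, lc]
    ring
  have e4 : ∀ (c : ℝ) (j : Ix), c * cmp (lc φ ψ a b) j p =
      φ p * (c * cmp a j p) + ψ p * (c * cmp b j p) := fun c j => by
    simp only [P354A.cmp, lc]
    ring
  simp only [L0, Ln, Bl]
  rw [e1]
  simp only [e2, e3]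
  simp only [e4, List.sum_map_add, List.sum_map_mul_left]
  ring

theorem bb_sm (hK : SmV K) (ha : SmV a) : SmV (bb K a) := fun i => Sm.cmul (L0_sm hK ha i) _

theorem wa_sm (hK : SmV K) (ha : SmV a) : SmV (wa A l K a) :=
  lc_sm (Sm.cmul (sv_sm l) _) (Sm.cmul (cv_sm l) _) ha (bb_sm hK ha)

theorem df_sm (hK : SmV K) (ha : SmV a) : SmV (df A l K a) := fun i =>
  (GG_dxl (k := 0) hK (wa_sm hK ha) i []).1

theorem lin_a (hp : Pol a) (ht : ∀ i, dt (cmp a i) p - dx 0 (cmp a i) p +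
    (K p Y11 + K p Y22) * a p i = 0 ∧ (K p Y12 - K p Y21) * a p i = 0) (i : Ix) :
    cL i * a p i = 0 ∧ DD a i p + L0 K a i p = 2 * cL i * bb K a p i := by
  have h : ∀ j, j ≠ a1 → j ≠ a2 → cmp a j = fun _ => 0 := fun j h1 h2 =>
    funext fun q => hp q j h1 h2
  have h' : ∀ j, j ≠ a1 → j ≠ a2 → a p j = 0 := hp p
  have d0 : ∀ j, dx j (fun _ : ℝ × X3 => (0 : ℝ)) p = 0 := fun j => by simp [dx]
  have d1 : dt (fun _ : ℝ × X3 => (0 : ℝ)) p = 0 := by simp [dt]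
  have t1 := ht a1
  have t2 := ht a2
  rcases (tabb i (all_mem i)).1 with c | c
  · rw [c]
    refine ⟨by simp, ?_⟩
    cases i <;> first
      | exact absurd c (by decide)
      | (simp [DD, L0, Ln, Bl, fl, fb, fa, lin, quad, linN, linL, quadN, quadL, angN, angL, Pc,
          c0, c1, cL, cN, h, d0, d1] <;> simp only [P354A.cmp] <;> linarith [t1.1, t1.2, t2.1, t2.2])
  · have n1 : i ≠ a1 := by rintro rfl; exact absurd c (by decide)
    have n2 : i ≠ a2 := by rintro rfl; exact absurd c (by decide)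
    simp only [DD, h i n1 n2, h' i n1 n2, d0, d1, bb, c]
    exact ⟨by simp, by push_cast; ring⟩

/-- The defect. -/
theorem df_eq (hl : l ≠ 0) (hK : SmV K) (ha : SmV a) (hp : Pol a)
    (ht : ∀ i, dt (cmp a i) p - dx 0 (cmp a i) p + (K p Y11 + K p Y22) * a p i = 0 ∧
      (K p Y12 - K p Y21) * a p i = 0) (i : Ix) :
    df A l K a p i = A / l * cv l p * (DD (bb K a) i p + L0 K (bb K a) i p) +
      Bl (wa A l K a) (wa A l K a) i p := by
  have s1 := Sm.cmul (sv_sm l) A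
  have s2 := Sm.cmul (cv_sm l) (A / l)
  obtain ⟨e1, e2⟩ := lin_a (K := K) hp ht i
  have e3 : (c0 i : ℝ) + c1 i = 2 * cL i := by exact_mod_cast (tabb i (all_mem i)).2.1
  rw [df, GG_eq, wa, L0_lc s1 s2 ha (bb_sm hK ha) fun j hj => by
    rw [dv_cmul (sv_sm l).dif, dv_cmul (cv_sm l).dif]
    simp only [dv_sv, dv_cv]
    fin_cases j <;> simp_all [e]]
  simp only [DD, dt_eq, dx_eq, dv_lc s1 s2 ha (bb_sm hK ha), dv_cmul (sv_sm l).dif,
    dv_cmul (cv_sm l).dif, dv_sv, dv_cv] at e2 ⊢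
  simp only [e, Matrix.cons_val_zero, Prod.fst_zero] at e2 ⊢
  have e4 : A / l * l = A := div_mul_cancel₀ A hl
  linear_combination A * sv l p * e2 + 2 * A * l * cv l p * e1 +
    (A * l * cv l p * a p i - A * sv l p * bb K a p i) * e3 -
    (c0 i + c1 i) * sv l p * bb K a p i * e4

/-! ### Locality -/

theorem loc0 (h : V =ᶠ[𝓝 p] 0) (j : Ix) : cmp V j p = 0 ∧ ∀ v, dv v (cmp V j) p = 0 := by
  have e : cmp V j =ᶠ[𝓝 p] fun _ => 0 := h.mono fun q hq => congrFun hq j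
  exact ⟨e.self_of_nhds, fun v => by rw [dv, e.fderiv_eq]; simp⟩

theorem L0_loc (h : V =ᶠ[𝓝 p] 0) (i : Ix) : L0 K V i p = 0 := by
  simp [L0, Ln, Bl, dx_eq, (loc0 h _).1, (loc0 h _).2]

theorem wa_loc (h : a =ᶠ[𝓝 p] 0) : wa A l K a =ᶠ[𝓝 p] 0 ∧ bb K a =ᶠ[𝓝 p] 0 := by
  constructor <;> filter_upwards [h.eventually_nhds] with q hq <;> funext i
  · simp [wa, lc, bb, L0_loc hq, show a q = 0 from hq.self_of_nhds]
  · simp [bb, L0_loc hq]

theorem df_loc (h : a =ᶠ[𝓝 p] 0) : df A l K a =ᶠ[𝓝 p] 0 := by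
  filter_upwards [(wa_loc (A := A) (l := l) (K := K) h).1.eventually_nhds] with q hq
  funext i
  simp [df, GG_eq, L0_loc hq, DD, Bl, dx_eq, dt_eq, (loc0 hq _).1, (loc0 hq _).2]

theorem Gd.loc (ha : Gd a) (hV : SmV V) (h : ∀ p, a =ᶠ[𝓝 p] 0 → V =ᶠ[𝓝 p] 0) : Gd V := fun i => by
  refine ⟨hV i, HasCompactSupport.intro (isCompact_iUnion fun j => (ha j).2) fun p hp => ?_⟩
  refine congrFun (h p ?_).self_of_nhds i
  have : ∀ j, cmp a j =ᶠ[𝓝 p] 0 := fun j =>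
    notMem_tsupport_iff_eventuallyEq.1 fun c => hp (mem_iUnion.2 ⟨j, c⟩)
  filter_upwards [eventually_all.2 this] with q hq using funext hq

/-! ### Bounds -/

theorem bb_bd (n : ℕ) : ∃ C ≥ (1 : ℝ), ∀ (K a : ℝ × X3 → Ix → ℝ) (q : ℝ × X3) (G : ℝ), SmV K →
    SmV a → 1 ≤ G → (∀ i, Pb (n + 2) (cmp K i) q G ∧ Pb (n + 2) (dt (cmp K i)) q G ∧
      Pb (n + 2) (cmp a i) q G ∧ Pb (n + 2) (dt (cmp a i)) q G) → ∀ i,
    Pb (n + 1) (cmp (bb K a) i) q (C * G ^ 2) ∧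
      Pb n (fun p => DD (bb K a) i p + L0 K (bb K a) i p) q (C * G ^ 3) := by
  have c1' := (cA_ge O).1
  set c : ℝ := cA * 2 ^ n with hc
  have c2 : 1 ≤ c := one_le_mul_of_one_le_of_one_le c1' (one_le_pow₀ one_le_two)
  refine ⟨22 * c + 18 * c ^ 2, by nlinarith, fun K a q G hK ha hG h i => ?_⟩
  have hL : ∀ i, |(cL i : ℝ) / 2| ≤ 1 := fun i =>
    abs_le.2 ⟨by linarith [(cL_nn i).1], by linarith [(cL_nn i).2]⟩
  have sb := bb_sm hK ha
  have b1 : ∀ i, Pb (n + 1) (cmp (bb K a) i) q (6 * c * G ^ 2) := fun i =>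
    (pb_cmul (L0_pb hK ha (fun i => (h i).1) hG (fun i => (h i).2.2.1) i) (L0_sm hK ha i)
      (hL i)).mono le_rfl (le_of_eq (by rw [hc]; ring))
  have s1 := L0_sm hK (dT_sm ha) i
  have s2 := Bl_sm (dT_sm hK) ha i
  have s3 := Bl_sm ha (dT_sm hK) i
  have b2 : Pb n (dt (cmp (bb K a) i)) q (5 * c * G ^ 2) := by
    rw [show cmp (bb K a) i = fun p => cL i / 2 * L0 K a i p from rfl, dt_eq,
      dv_cmul (L0_sm hK ha i).dif, ← dt_eq, dt_L0 hK ha]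
    exact (pb_cmul (pb_add (L0_pb hK (dT_sm ha) (fun i => (h i).1.mono (by omega) le_rfl) hG
      (fun i => (h i).2.2.2.mono (by omega) le_rfl) i) (pb_add
      (Bl_pb (dT_sm hK) ha (fun i => (h i).2.1.mono (by omega) le_rfl)
        (fun i => (h i).2.2.1.mono (by omega) le_rfl) i)
      (Bl_pb ha (dT_sm hK) (fun i => (h i).2.2.1.mono (by omega) le_rfl)
        (fun i => (h i).2.1.mono (by omega) le_rfl) i) s2 s3) s1 (s2.add s3))
      (s1.add (s2.add s3)) (hL i)).mono le_rfl (le_of_eq (by rw [hc]; ring))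
  have g2 : G ^ 2 ≤ G ^ 3 := pow_le_pow_right₀ hG (by norm_num)
  have g0 : 0 ≤ G ^ 2 := sq_nonneg _
  refine ⟨(b1 i).mono le_rfl (by nlinarith), ?_⟩
  have t := P354X.tab1 i (all_mem i)
  have k0 : |(c0 i : ℝ)| ≤ 2 := abs_le.2 ⟨by linarith [(c0_mem i).1], (c0_mem i).2⟩
  have k1 : |(c1 i : ℝ)| ≤ 2 := by exact_mod_cast (abs_le.2 ⟨by omega, by omega⟩ : |c1 i| ≤ 2)
  refine (pb_add (pb_add (pb_cmul b2 (sb i).dt k0) (pb_cmul ((b1 i).dx 0) ((sb i).dx 0) k1)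
    (Sm.cmul (sb i).dt _) (Sm.cmul ((sb i).dx 0) _))
    (L0_pb hK sb (fun i => (h i).1.mono (by omega) le_rfl) hG b1 i) (DD_sm sb i)
    (L0_sm hK sb i)).mono le_rfl ?_
  have := mul_le_mul_of_nonneg_left g2 (zero_le_one.trans c2)
  rw [← mul_assoc cA, ← hc]
  linarith

theorem sv_sx (hl : l ≠ 0) (p : ℝ × X3) :
    sv l (sx l p) = tg l 0 p ∧ cv l (sx l p) = tg l (Real.pi / 2) p := by
  simp only [sv, cv, tg, sx_ap, mul_add, mul_inv_cancel_left₀ hl, add_zero,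
    Real.sin_add_pi_div_two, and_self]

/-- The background after the scaling of the lapse and of y. -/
structure Bg0 (n : ℕ) (T G : ℝ) (c : ℝ → ℝ) (K a : ℝ × X3 → Ix → ℝ) : Prop where
  sK : Gd K
  sa : Gd a
  pol : Pol a
  rate : ∀ p : ℝ × X3, p.1 ∈ Icc 0 T → ∀ i, (¬ Ex i → Pa G n (cmp K i) p (c p.1)) ∧
    (Ex i → Pa G n (cmp K i) p (Real.log G))
  shift : ∃ R, ∀ p : ℝ × X3, 1 < |p.1 + p.2.1 - R| → ∀ i, Ex i → K p i = 0
  crude : ∀ p : ℝ × X3, p.1 ∈ Icc 0 T → ∀ i, Pb n (cmp K i) p G ∧ Pb n (dt (cmp K i)) p G ∧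
    Pb n (cmp a i) p G ∧ Pb n (dt (cmp a i)) p G
  trans : ∀ p : ℝ × X3, p.1 ∈ Icc 0 T → ∀ i,
    dt (cmp a i) p - dx 0 (cmp a i) p + (K p Y11 + K p Y22) * a p i = 0 ∧
      (K p Y12 - K p Y21) * a p i = 0
  supp : ∃ R, ∀ p : ℝ × X3, G < |p.1 + p.2.1 - R| ∨ G < ‖p.2.2‖ → a p = 0

/-- The bounds in the scaled coordinates. -/
theorem wkb (n : ℕ) : ∃ C ≥ (1 : ℝ), ∀ (T G A l : ℝ) (c : ℝ → ℝ) (K a : ℝ × X3 → Ix → ℝ),
    Bg0 (n + 2) T G c K a → 1 ≤ G → 1 ≤ l → 0 < A → A * l ≤ 1 → ∀ p : ℝ × X3, p.1 ∈ Icc 0 T →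
      ∀ i, Pb (n + 1) (fun q => wa A l K a (sx l q) i) p (C * A * G ^ 2) ∧
        Pb (n + 1) (fun q => A / l * cv l (sx l q) * bb K a (sx l q) i) p (C * (A / l) * G ^ 2) ∧
        Pb n (fun q => df A l K a (sx l q) i) p (C * (A / l) * G ^ 4) := by
  obtain ⟨C, C1, hC⟩ := bb_bd n
  have c1' := (cA_ge O).1
  set D : ℝ := 2 ^ (n + 1) * (1 + C) with hD
  have w1 : (1 : ℝ) ≤ 2 ^ n := one_le_pow₀ one_le_two
  have D1 : 2 ^ (n + 1) * C ≤ D := by rw [hD]; gcongr; linarith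
  have D2 : 1 ≤ D := by rw [hD, pow_succ]; nlinarith
  have D3 : 0 ≤ cA * (2 ^ n * (D * D)) := by positivity
  refine ⟨D + cA * (2 ^ n * (D * D)), by linarith, fun T G A l c K a h hG hl hA hAl p hp => ?_⟩
  have l0 : l ≠ 0 := by positivity
  have sK : SmV K := fun i => (h.sK i).1
  have sa : SmV a := fun i => (h.sa i).1
  have sb := bb_sm sK sa
  have hb := hC K a (sx l p) G sK sa hG (h.crude (sx l p) hp)
  have al : |A / l| ≤ A / l := (abs_of_pos (by positivity)).le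
  have al' : A / l ≤ A := div_le_self hA.le hl
  have g0 : 0 ≤ G ^ 2 := sq_nonneg _
  have g1 : G ≤ G ^ 2 := le_self_pow₀ hG two_ne_zero
  have b1 : ∀ i, Pb (n + 1) (fun q => A / l * tg l (Real.pi / 2) q * bb K a (sx l q) i) p
      (2 ^ (n + 1) * (A / l * 1 * (C * G ^ 2))) := fun i =>
    (pb_cmul (pb_tg _ _ _ _) (tg_sm _ _) al).mul (pb_sx hl (sb i) (hb i).1)
      (Sm.cmul (tg_sm _ _) _) (sm_sx (sb i))
  have b2 : ∀ i, Pb (n + 1) (cmp (fun q => wa A l K a (sx l q)) i) p (D * A * G ^ 2) := fun i => by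
    have e : cmp (fun q => wa A l K a (sx l q)) i = fun q => A * tg l 0 q * a (sx l q) i +
        A / l * tg l (Real.pi / 2) q * bb K a (sx l q) i := funext fun q => by
      simp only [P354A.cmp, wa, lc, sv_sx l0]
    rw [e]
    refine (pb_add ((pb_cmul (pb_tg _ _ _ _) (tg_sm _ _) (abs_of_pos hA).le).mul
      (pb_sx hl (sa i) ((h.crude (sx l p) hp i).2.2.1.mono (by omega) le_rfl))
      (Sm.cmul (tg_sm _ _) _) (sm_sx (sa i))) (b1 i) ((Sm.cmul (tg_sm _ _) _).mul (sm_sx (sa i)))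
      ((Sm.cmul (tg_sm _ _) _).mul (sm_sx (sb i)))).mono le_rfl ?_
    have u1 := mul_le_mul_of_nonneg_left g1 hA.le
    have u2 := mul_le_mul_of_nonneg_right al' (show 0 ≤ C * G ^ 2 by positivity)
    have u3 := mul_le_mul_of_nonneg_left (add_le_add u1 u2)
      (show (0 : ℝ) ≤ 2 ^ (n + 1) by positivity)
    rw [hD]
    linarith
  intro i
  have x0 : 0 ≤ A / l * G ^ 2 := by positivity
  refine ⟨(b2 i).mono le_rfl ?_, ?_, ?_⟩
  · have := mul_nonneg D3 (mul_nonneg hA.le g0)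
    linarith
  · simp only [sv_sx l0]
    refine (b1 i).mono le_rfl ?_
    have u1 := mul_nonneg D3 x0
    have u2 := mul_le_mul_of_nonneg_right D1 x0
    linarith
  · have sw : SmV fun q => wa A l K a (sx l q) := fun i =>
      sm_sx (f := cmp (wa A l K a) i) (l := l) (wa_sm sK sa i)
    have sD : Sm fun p => DD (bb K a) i p + L0 K (bb K a) i p := (DD_sm sb i).add (L0_sm sK sb i)
    have s1 := (Sm.cmul (tg_sm l (Real.pi / 2)) (A / l)).mul (sm_sx (l := l) sD)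
    have b3 := pb_add ((pb_cmul (pb_tg l (Real.pi / 2) n p) (tg_sm _ _) al).mul
      (pb_sx hl sD (hb i).2) (Sm.cmul (tg_sm _ _) _) (sm_sx sD))
      (Bl_pb sw sw (fun i => (b2 i).mono n.le_succ le_rfl) b2 i) s1 (Bl_sm sw sw i)
    refine pb_slice (sm_sx (f := cmp (df A l K a) i) (l := l) (df_sm sK sa i)) (s1.add (Bl_sm sw sw i)) (fun x => ?_)
      (b3.mono le_rfl ?_)
    · simp only [Bl_sx (wa_sm sK sa), ← (sv_sx l0 _).2]
      exact df_eq l0 sK sa h.pol (h.trans (sx l (p.1, x)) hp) i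
    · have u1 : A * A ≤ A / l := by
        rw [le_div_iff₀ (by positivity), mul_assoc]
        exact mul_le_of_le_one_right hA.le hAl
      have u2 := mul_le_mul_of_nonneg_left u1 (mul_nonneg D3 (show 0 ≤ G ^ 4 by positivity))
      have u3 : 2 ^ n * C * G ^ 3 ≤ D * G ^ 4 := mul_le_mul (by rw [pow_succ] at D1; nlinarith)
        (pow_le_pow_right₀ hG (by norm_num)) (by positivity) (by linarith)
      have u4 := mul_le_mul_of_nonneg_left u3 (show 0 ≤ A / l by positivity)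
      linarith

end Vale.Agent.P354XB
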